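import Mathlib

/-!
Definitions for P113: forced Navier-Stokes on the flat three-torus, Turing machines, effective
forces.  Functions on the torus `(ℝ/ℤ)^3` are functions on `ℝ^3` of period one in each coordinate.
-/

namespace Vale.Agent.P113

open Set MeasureTheory

/-- `g` has period one in each of the three coordinates, so it is a function on the torus. -/
def Per {E : Type} (g : (Fin 3 → ℝ) → E) : Prop :=
  ∀ (x : Fin 3 → ℝ) (i : Fin 3), g (x + Pi.single i 1) = g x

/-- Partial derivative in time of a scalar function of `(t, x)`. -/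
noncomputable def dT (g : ℝ → (Fin 3 → ℝ) → ℝ) : ℝ → (Fin 3 → ℝ) → ℝ :=
  fun t x => deriv (fun s => g s x) t

/-- Partial derivative in the space coordinate `i` of a scalar function of `(t, x)`. -/
noncomputable def dX (i : Fin 3) (g : ℝ → (Fin 3 → ℝ) → ℝ) : ℝ → (Fin 3 → ℝ) → ℝ :=
  fun t x => deriv (fun s => g t (Function.update x i s)) (x i)

/-- Time derivative on the closed interval `[0, T]`, one-sided at the end points. -/
noncomputable def dTOn (T : ℝ) (g : ℝ → (Fin 3 → ℝ) → ℝ) : ℝ → (Fin 3 → ℝ) → ℝ :=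
  fun t x => derivWithin (fun s => g s x) (Icc 0 T) t

/-- The mixed derivative with multi-index `(a, b, c, d)` in `(t, x₀, x₁, x₂)`. -/
noncomputable def mixed (a b c d : ℕ) (g : ℝ → (Fin 3 → ℝ) → ℝ) : ℝ → (Fin 3 → ℝ) → ℝ :=
  dT^[a] ((dX 0)^[b] ((dX 1)^[c] ((dX 2)^[d] g)))

/-- Component `j` of a time-dependent vector field. -/
def comp (u : ℝ → (Fin 3 → ℝ) → (Fin 3 → ℝ)) (j : Fin 3) : ℝ → (Fin 3 → ℝ) → ℝ :=
  fun t x => u t x j

/-- `g` is jointly continuous on `[0, T] × ℝ^3`. -/
def ContOn (T : ℝ) (g : ℝ → (Fin 3 → ℝ) → ℝ) : Prop :=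
  ContinuousOn (fun z : ℝ × (Fin 3 → ℝ) => g z.1 z.2) (Icc 0 T ×ˢ univ)

/-- `g` is continuous on `[0, T] × ℝ^3`, and its first space partial derivatives exist there and
are continuous there. -/
def C1On (T : ℝ) (g : ℝ → (Fin 3 → ℝ) → ℝ) : Prop :=
  ContOn T g ∧ ∀ i : Fin 3,
    (∀ t ∈ Icc 0 T, ∀ x, DifferentiableAt ℝ (fun s => g t (Function.update x i s)) (x i)) ∧
      ContOn T (dX i g)

/-- Classical solution `(u, p)` on `[0, T] × 𝕋^3` of the Navier-Stokes system with viscosity `ν`,
force `f` and zero initial velocity. -/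
structure IsClassical (ν T : ℝ) (f u : ℝ → (Fin 3 → ℝ) → (Fin 3 → ℝ))
    (p : ℝ → (Fin 3 → ℝ) → ℝ) : Prop where
  per_u : ∀ t ∈ Icc 0 T, Per (u t)
  per_p : ∀ t ∈ Icc 0 T, Per (p t)
  reg_u : ∀ j, C1On T (comp u j)
  reg_du : ∀ i j, C1On T (dX i (comp u j))
  diff_t : ∀ j, ∀ t ∈ Icc 0 T, ∀ x, DifferentiableWithinAt ℝ (fun s => u s x j) (Icc 0 T) t
  cont_dt : ∀ j, ContOn T (dTOn T (comp u j))
  reg_p : C1On T p
  mean_p : ∀ t ∈ Icc 0 T, ∫ x in Icc (0 : Fin 3 → ℝ) 1, p t x = 0
  momentum : ∀ t ∈ Icc 0 T, ∀ x j,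
    dTOn T (comp u j) t x + ∑ i, u t x i * dX i (comp u j) t x =
      -dX j p t x + ν * ∑ i, dX i (dX i (comp u j)) t x + f t x j
  divfree : ∀ t ∈ Icc 0 T, ∀ x, ∑ i, dX i (comp u i) t x = 0
  init : ∀ x, u 0 x = 0

/-- `X` is (the lift to `ℝ^3` of) the trajectory of `a`: `X 0 = a` and `X' t = u t (X t)` for
`t ≥ 0`. -/
def IsTrajectory (u : ℝ → (Fin 3 → ℝ) → (Fin 3 → ℝ)) (a : Fin 3 → ℝ) (X : ℝ → (Fin 3 → ℝ)) :
    Prop :=
  X 0 = a ∧ ∀ t, 0 ≤ t → HasDerivWithinAt X (u t (X t)) (Ici 0) t

/-- The projection `ℝ^3 → (ℝ/ℤ)^3`. -/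
def toTorus (x : Fin 3 → ℝ) : Fin 3 → AddCircle (1 : ℝ) := fun i => (x i : AddCircle (1 : ℝ))

/-- Deterministic one-tape Turing machine with alphabet `Fin (g + 1)` (blank `0`), states
`Fin (m + 1)`, a start state, a set of halting states and a transition table giving the new state,
the symbol written and the direction (`true` is right, `false` is left). -/
structure Machine where
  g : ℕ
  m : ℕ
  start : Fin (m + 1)
  halting : Fin (m + 1) → Bool
  next : Fin (m + 1) → Fin (g + 1) → Fin (m + 1) × Fin (g + 1) × Bool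

/-- Configuration: state, two-sided tape, head position. -/
structure Config (M : Machine) where
  state : Fin (M.m + 1)
  tape : ℤ → Fin (M.g + 1)
  head : ℤ

/-- One step of the machine; a halting configuration does not change. -/
def Machine.step (M : Machine) (c : Config M) : Config M :=
  if M.halting c.state then c
  else
    ⟨(M.next c.state (c.tape c.head)).1,
      Function.update c.tape c.head (M.next c.state (c.tape c.head)).2.1,
      if (M.next c.state (c.tape c.head)).2.2 then c.head + 1 else c.head - 1⟩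

/-- Initial configuration: the word `w` in cells `0, 1, …`, blanks elsewhere, head at cell `0`. -/
def Machine.init (M : Machine) (w : List (Fin (M.g + 1))) : Config M :=
  ⟨M.start, fun i => if 0 ≤ i then w.getD i.toNat 0 else 0, 0⟩

/-- `M` reaches a halting state on input `w` after finitely many steps, possibly none. -/
def Machine.Halts (M : Machine) (w : List (Fin (M.g + 1))) : Prop :=
  ∃ n : ℕ, M.halting (M.step^[n] (M.init w)).state = true

/-- The pair `(M, w)` written out as finite data: the two sizes, the start state, the list of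
halting flags, the transition table and the input word. -/
def Machine.descr (M : Machine) (w : List (Fin (M.g + 1))) :
    (ℕ × ℕ × ℕ) × List Bool × List (List (ℕ × ℕ × Bool)) × List ℕ :=
  ((M.g, M.m, M.start.val), List.ofFn M.halting,
    List.ofFn fun q => List.ofFn fun a =>
      ((M.next q a).1.val, (M.next q a).2.1.val, (M.next q a).2.2),
    w.map Fin.val)

/-- The rational number `(a - b) / (c + 1)` named by the triple `(a, b, c)`. -/
noncomputable def ratv (r : ℕ × ℕ × ℕ) : ℝ := ((r.1 : ℝ) - r.2.1) / (r.2.2 + 1)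

/-- `ν` is a computable real number. -/
def ComputableReal (ν : ℝ) : Prop :=
  ∃ a : ℕ → ℕ × ℕ × ℕ, Computable a ∧ ∀ n : ℕ, |ratv (a n) - ν| ≤ 1 / ((n : ℝ) + 1)

/-- The program `e` returns every mixed derivative of every component of `f`, at every rational
point with `t ≥ 0`, to every prescribed positive rational accuracy. -/
def Computes (e : Nat.Partrec.Code) (f : ℝ → (Fin 3 → ℝ) → (Fin 3 → ℝ)) : Prop :=
  ∀ (a b c d : ℕ) (j : Fin 3) (t x₀ x₁ x₂ ε : ℕ × ℕ × ℕ), 0 ≤ ratv t → 0 < ratv ε →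
    ∃ r : ℕ × ℕ × ℕ,
      Encodable.encode r ∈ e.eval (Encodable.encode ((a, b, c, d), j.val, (t, x₀, x₁, x₂), ε)) ∧
      |ratv r - mixed a b c d (comp f j) (ratv t) ![ratv x₀, ratv x₁, ratv x₂]| ≤ ratv ε

end Vale.Agent.P113
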