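import Vale.Agent.P113.PrimRat

/-!
Families of real numbers with primitive recursive rational approximations.
-/

namespace Vale.Agent.P113.Eff

open Set Filter Topology

variable {α β : Type} [Primcodable α] [Primcodable β]

/-- uniformly approximable family of reals -/
def PRR (g : α → ℝ) : Prop :=
  ∃ A : α × ℕ → ℚ, Primrec A ∧ ∀ a (n : ℕ), |(A (a, n) : ℝ) - g a| ≤ 1 / ((n : ℝ) + 1)

theorem PRR.rat {f : α → ℚ} (hf : Primrec f) : PRR fun a => (f a : ℝ) :=
  ⟨fun p => f p.1, by fun_prop, fun a n => by simp; positivity⟩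

theorem PRR.comp {g : α → ℝ} (hg : PRR g) {f : β → α} (hf : Primrec f) :
    PRR fun b => g (f b) := by
  obtain ⟨A, hA, h⟩ := hg
  exact ⟨fun p => A (f p.1, p.2), by fun_prop, fun b n => h (f b) n⟩

theorem PRR.of_eq {g g' : α → ℝ} (hg : PRR g) (h : ∀ a, g a = g' a) : PRR g' :=
  (funext h : g = g') ▸ hg

theorem PRR.add {g g' : α → ℝ} (hg : PRR g) (hg' : PRR g') : PRR fun a => g a + g' a := by
  obtain ⟨A, hA, h⟩ := hg
  obtain ⟨B, hB, h'⟩ := hg'
  refine ⟨fun p => A (p.1, 2 * p.2 + 1) + B (p.1, 2 * p.2 + 1), by fun_prop, fun a n => ?_⟩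
  have h1 := h a (2 * n + 1)
  have h2 := h' a (2 * n + 1)
  have e : 1 / (((2 * n + 1 : ℕ) : ℝ) + 1) = 1 / ((n : ℝ) + 1) / 2 := by
    push_cast; field_simp; ring
  rw [e] at h1 h2
  push_cast
  rw [abs_le] at *
  constructor <;> linarith [h1.1, h1.2, h2.1, h2.2]

theorem PRR.ite {c : α → Prop} [DecidablePred c] (hc : PrimrecPred c) {g g' : α → ℝ}
    (hg : PRR g) (hg' : PRR g') : PRR fun a => if c a then g a else g' a := by
  obtain ⟨A, hA, h⟩ := hg
  obtain ⟨B, hB, h'⟩ := hg'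
  refine ⟨fun p => if c p.1 then A p else B p, Primrec.ite (hc.comp Primrec.fst) hA hB,
    fun a n => ?_⟩
  dsimp only
  split_ifs
  · exact h a n
  · exact h' a n

theorem PRR.mul {g g' : α → ℝ} (hg : PRR g) (hg' : PRR g') : PRR fun a => g a * g' a := by
  obtain ⟨A, hA, h⟩ := hg
  obtain ⟨B, hB, h'⟩ := hg'
  let K : α → ℕ := fun a => ⌊|A (a, 0)|⌋₊ + ⌊|B (a, 0)|⌋₊ + 5
  have hK : Primrec K := by fun_prop
  refine ⟨fun p => A (p.1, K p.1 * (p.2 + 1)) * B (p.1, K p.1 * (p.2 + 1)), by fun_prop,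
    fun a n => ?_⟩
  have h1 := h a (K a * (n + 1))
  have h2 := h' a (K a * (n + 1))
  have h3 := h a 0
  have h4 := h' a 0
  have h5 : |(A (a, 0) : ℝ)| < ⌊|A (a, 0)|⌋₊ + 1 := by exact_mod_cast Nat.lt_floor_add_one _
  have h6 : |(B (a, 0) : ℝ)| < ⌊|B (a, 0)|⌋₊ + 1 := by exact_mod_cast Nat.lt_floor_add_one _
  have hKv : (K a : ℝ) = ⌊|A (a, 0)|⌋₊ + ⌊|B (a, 0)|⌋₊ + 5 := by simp [K]
  set x : ℝ := ((A (a, K a * (n + 1)) : ℚ) : ℝ)
  set y : ℝ := ((B (a, K a * (n + 1)) : ℚ) : ℝ)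
  set δ : ℝ := 1 / (((K a * (n + 1) : ℕ) : ℝ) + 1) with hδ
  have hδ0 : 0 ≤ δ := by positivity
  have hδ1 : δ ≤ 1 := by
    rw [hδ, div_le_one (by positivity)]
    linarith [(Nat.cast_nonneg (K a * (n + 1)) : (0 : ℝ) ≤ _)]
  have hδ2 : δ * K a ≤ 1 / ((n : ℝ) + 1) := by
    rw [hδ, div_mul_eq_mul_div, div_le_div_iff₀ (by positivity) (by positivity)]
    push_cast
    linarith
  simp only [Nat.cast_zero, zero_add, div_one] at h3 h4
  have h7 : |g a| ≤ ⌊|A (a, 0)|⌋₊ + 2 := by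
    have := abs_sub_abs_le_abs_sub (g a) (A (a, 0))
    rw [abs_sub_comm] at this
    linarith
  have h8 : |y| ≤ ⌊|B (a, 0)|⌋₊ + 3 := by
    have e1 := abs_sub_abs_le_abs_sub (g' a) (B (a, 0))
    rw [abs_sub_comm] at e1
    have e2 := abs_sub_abs_le_abs_sub y (g' a)
    linarith
  push_cast
  have e : x * y - g a * g' a = (x - g a) * y + g a * (y - g' a) := by ring
  rw [e]
  refine (abs_add_le _ _).trans ?_
  rw [abs_mul, abs_mul]
  have h9 := mul_le_mul h1 h8 (abs_nonneg _) hδ0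
  have h10 := mul_le_mul h7 h2 (abs_nonneg _) (by positivity)
  rw [hKv] at hδ2
  linarith

theorem PRR.neg {g : α → ℝ} (hg : PRR g) : PRR fun a => -g a :=
  ((PRR.rat (f := fun _ : α => (-1 : ℚ)) (by fun_prop)).mul hg).of_eq fun a => by simp

theorem PRR.sub {g g' : α → ℝ} (hg : PRR g) (hg' : PRR g') : PRR fun a => g a - g' a :=
  (hg.add hg'.neg).of_eq fun a => by ring

theorem abs_list_sum_sub_le {γ : Type} (L : List γ) (u v : γ → ℝ) (δ : ℝ)
    (h : ∀ b, |u b - v b| ≤ δ) : |(L.map u).sum - (L.map v).sum| ≤ L.length * δ := by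
  induction L with
  | nil => simp
  | cons b L ih =>
    simp only [List.map_cons, List.sum_cons, List.length_cons]
    push_cast
    have := h b
    rw [abs_le] at *
    constructor <;> linarith [ih.1, ih.2, this.1, this.2]

theorem PRR.list_sum {g : α × β → ℝ} (hg : PRR g) {L : α → List β} (hL : Primrec L) :
    PRR fun a => ((L a).map fun b => g (a, b)).sum := by
  obtain ⟨A, hA, h⟩ := hg
  refine ⟨fun p => ((L p.1).map fun b => A ((p.1, b), (L p.1).length * (p.2 + 1))).sum,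
    pq_sum (pr_map (by fun_prop) (by fun_prop)), fun a n => ?_⟩
  dsimp only
  rw [Rat.cast_list_sum, List.map_map]
  refine (abs_list_sum_sub_le (L a) _ _ _ fun b => h (a, b) ((L a).length * (n + 1))).trans ?_
  rw [mul_one_div, div_le_div_iff₀ (by positivity) (by positivity)]
  push_cast
  linarith

theorem PRR.pow {g : α → ℝ} (hg : PRR g) (hb : ∀ a, |g a| ≤ 1) {k : α → ℕ} (hk : Primrec k) :
    PRR fun a => g a ^ k a := by
  obtain ⟨A, hA, h⟩ := hg
  let cl : ℚ → ℚ := fun x => if 1 ≤ x then 1 else if x ≤ -1 then -1 else x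
  have hcl : Primrec cl := by fun_prop
  refine ⟨fun p => cl (A (p.1, k p.1 * (p.2 + 1))) ^ k p.1, by fun_prop, fun a n => ?_⟩
  have h1 := h a (k a * (n + 1))
  set x := A (a, k a * (n + 1))
  have h2 := abs_le.1 (hb a)
  have h3 : |(cl x : ℝ)| ≤ 1 ∧ |(cl x : ℝ) - g a| ≤ |(x : ℝ) - g a| := by
    simp only [cl]
    split_ifs with h4 h5
    · have : (1 : ℝ) ≤ x := by exact_mod_cast h4
      refine ⟨by simp, ?_⟩
      push_cast
      rw [abs_of_nonneg (by linarith), abs_of_nonneg (by linarith)]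
      linarith
    · have : (x : ℝ) ≤ -1 := by exact_mod_cast h5
      refine ⟨by simp, ?_⟩
      push_cast
      rw [abs_of_nonpos (by linarith), abs_of_nonpos (by linarith)]
      linarith
    · have e1 : (x : ℝ) < 1 := by exact_mod_cast not_le.1 h4
      have e2 : -1 < (x : ℝ) := by exact_mod_cast not_le.1 h5
      exact ⟨abs_le.2 ⟨e2.le, e1.le⟩, le_rfl⟩
  push_cast
  refine (abs_pow_sub_pow_le _ _ _).trans ?_
  have h4 : max |(cl x : ℝ)| |g a| ^ (k a - 1) ≤ 1 :=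
    pow_le_one₀ (le_max_of_le_left (abs_nonneg _)) (max_le h3.1 (hb a))
  have h5 : |(cl x : ℝ) - g a| * k a ≤ 1 / ((n : ℝ) + 1) := by
    refine (mul_le_mul_of_nonneg_right (h3.2.trans h1) (Nat.cast_nonneg _)).trans ?_
    rw [div_mul_eq_mul_div, div_le_div_iff₀ (by positivity) (by positivity)]
    push_cast
    linarith
  exact (mul_le_of_le_one_right (by positivity) h4).trans h5

theorem PRR.inv_one_add {g : α → ℝ} (hg : PRR g) (hb : ∀ a, 0 ≤ g a) :
    PRR fun a => (1 + g a)⁻¹ := by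
  obtain ⟨A, hA, h⟩ := hg
  refine ⟨fun p => (1 + |A p|)⁻¹, by fun_prop, fun a n => le_trans ?_ (h a n)⟩
  push_cast
  have h1 := hb a
  have h2 : 0 ≤ |(A (a, n) : ℝ)| := abs_nonneg _
  have h3 : |(|(A (a, n) : ℝ)| - g a)| ≤ |(A (a, n) : ℝ) - g a| := by
    have := abs_abs_sub_abs_le_abs_sub (A (a, n) : ℝ) (g a)
    rwa [abs_of_nonneg h1] at this
  refine le_trans ?_ h3
  set y := |(A (a, n) : ℝ)|
  have e : (1 + y)⁻¹ - (1 + g a)⁻¹ = -(y - g a) * ((1 + y) * (1 + g a))⁻¹ := by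
    field_simp; ring
  rw [e, abs_mul, abs_neg]
  refine mul_le_of_le_one_right (abs_nonneg _) ?_
  rw [abs_of_nonneg (by positivity)]
  exact inv_le_one_of_one_le₀ (by nlinarith)

theorem exp_neg_approx (a : ℝ) (N : ℕ) (h0 : 0 ≤ a) (hN : a < N) :
    |(1 - a / N) ^ N - Real.exp (-a)| ≤ a ^ 2 / N := by
  have hNp : (0 : ℝ) < N := lt_of_le_of_lt h0 hN
  set y := a / N with hy
  have hy0 : 0 ≤ y := by positivity
  have hy1 : y < 1 := (div_lt_one hNp).2 hN
  have ha : a = N * y := by rw [hy]; field_simp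
  have h1 : (1 - y) ^ N ≤ Real.exp (-a) := by
    rw [ha, ← mul_neg, Real.exp_nat_mul]
    exact pow_le_pow_left₀ (by linarith) (by linarith [Real.add_one_le_exp (-y)]) N
  have h2 : Real.exp (-a) * (1 + y) ^ N ≤ 1 := by
    have : (1 + y) ^ N ≤ Real.exp a := by
      rw [ha, Real.exp_nat_mul]
      exact pow_le_pow_left₀ (by linarith) (by linarith [Real.add_one_le_exp y]) N
    calc Real.exp (-a) * (1 + y) ^ N ≤ Real.exp (-a) * Real.exp a :=
          mul_le_mul_of_nonneg_left this (Real.exp_pos _).le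
      _ = 1 := by rw [← Real.exp_add]; simp
  have h3 : 1 - N * y ^ 2 ≤ (1 - y) ^ N * (1 + y) ^ N := by
    rw [← mul_pow]
    have := one_add_mul_le_pow (a := -y ^ 2) (by nlinarith) N
    calc 1 - N * y ^ 2 = 1 + N * (-y ^ 2) := by ring
      _ ≤ (1 + -y ^ 2) ^ N := this
      _ = ((1 - y) * (1 + y)) ^ N := by ring_nf
  have h4 : 1 ≤ (1 + y) ^ N := one_le_pow₀ (by linarith)
  have h5 : a ^ 2 / N = N * y ^ 2 := by rw [ha]; field_simp
  rw [h5, abs_of_nonpos (by linarith)]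
  have h6 : (Real.exp (-a) - (1 - y) ^ N) * (1 + y) ^ N ≤ N * y ^ 2 := by nlinarith
  nlinarith

theorem prr_exp : PRR fun q : ℚ => Real.exp (-|(q : ℝ)|) := by
  refine ⟨fun p => (1 - |p.1| / (((⌊|p.1|⌋₊ + 1) * (⌊|p.1|⌋₊ + 1) * (p.2 + 1) : ℕ) : ℚ)) ^
    ((⌊|p.1|⌋₊ + 1) * (⌊|p.1|⌋₊ + 1) * (p.2 + 1)), by fun_prop, fun q n => ?_⟩
  dsimp only
  set k := ⌊|q|⌋₊ + 1 with hk
  have h1 : |(q : ℝ)| < k := by
    rw [hk]; exact_mod_cast Nat.lt_floor_add_one _
  have h0 : 0 ≤ |(q : ℝ)| := abs_nonneg _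
  have hk1 : (1 : ℝ) ≤ k := by rw [hk]; push_cast; linarith [(Nat.cast_nonneg ⌊|q|⌋₊ : (0 : ℝ) ≤ _)]
  have hn : (0 : ℝ) ≤ n := Nat.cast_nonneg n
  have h2 := exp_neg_approx |(q : ℝ)| (k * k * (n + 1)) h0 (by push_cast; nlinarith)
  rw [Rat.cast_pow, Rat.cast_sub, Rat.cast_div, Rat.cast_abs, Rat.cast_natCast, Rat.cast_one]
  refine h2.trans ?_
  rw [div_le_div_iff₀ (by positivity) (by positivity)]
  push_cast
  have : |(q : ℝ)| ^ 2 ≤ k * k := by nlinarith
  nlinarith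

theorem st_eq {x : ℝ} (h0 : 0 < x) (h1 : x < 1) :
    Real.smoothTransition x = (1 + Real.exp (x⁻¹ - (1 - x)⁻¹))⁻¹ := by
  unfold Real.smoothTransition expNegInvGlue
  rw [if_neg (not_le.2 h0), if_neg (not_le.2 (by linarith)), Real.exp_sub, Real.exp_neg,
    Real.exp_neg]
  field_simp

theorem prr_st : PRR fun q : ℚ => Real.smoothTransition q := by
  have hE : PRR fun q : ℚ => (1 + Real.exp (-|((q⁻¹ - (1 - q)⁻¹ : ℚ) : ℝ)|))⁻¹ :=
    (prr_exp.comp (f := fun q : ℚ => q⁻¹ - (1 - q)⁻¹) (by fun_prop)).inv_one_add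
      fun _ => (Real.exp_pos _).le
  have h0 : PRR fun _ : ℚ => ((0 : ℚ) : ℝ) := PRR.rat (by fun_prop)
  have h1 : PRR fun _ : ℚ => ((1 : ℚ) : ℝ) := PRR.rat (by fun_prop)
  refine (PRR.ite (c := fun q : ℚ => q ≤ 0) (by fun_prop) h0
    (PRR.ite (c := fun q : ℚ => 1 ≤ q) (by fun_prop) h1
      (PRR.ite (c := fun q : ℚ => q⁻¹ - (1 - q)⁻¹ ≤ 0) (by fun_prop) hE (h1.sub hE)))).of_eq
    fun q => ?_
  split_ifs with c1 c2 c3
  · rw [Real.smoothTransition.zero_of_nonpos (by exact_mod_cast c1)]; simp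
  · rw [Real.smoothTransition.one_of_one_le (by exact_mod_cast c2)]; simp
  · rw [st_eq (by exact_mod_cast not_le.1 c1) (by exact_mod_cast not_le.1 c2),
      abs_of_nonpos (by exact_mod_cast c3)]
    push_cast
    rw [neg_neg]
  · rw [st_eq (by exact_mod_cast not_le.1 c1) (by exact_mod_cast not_le.1 c2),
      abs_of_pos (by exact_mod_cast not_le.1 c3)]
    push_cast
    rw [Real.exp_neg]
    field_simp
    ring

/-- monomial in `1/x`, `1/(1-x)` and the transition function -/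
abbrev Mono := ℚ × ℕ × ℕ × ℕ

/-- value of a monomial -/
noncomputable def ev (x : ℝ) (m : Mono) : ℝ :=
  (m.1 : ℝ) * x⁻¹ ^ m.2.1 * (1 - x)⁻¹ ^ m.2.2.1 * Real.smoothTransition x ^ m.2.2.2

/-- derivative of a monomial -/
def dm (m : Mono) : List Mono :=
  [(-m.1 * m.2.1, m.2.1 + 1, m.2.2.1, m.2.2.2), (m.1 * m.2.2.1, m.2.1, m.2.2.1 + 1, m.2.2.2),
    (m.1 * m.2.2.2, m.2.1 + 2, m.2.2.1, m.2.2.2), (m.1 * m.2.2.2, m.2.1, m.2.2.1 + 2, m.2.2.2),
    (-m.1 * m.2.2.2, m.2.1 + 2, m.2.2.1, m.2.2.2 + 1),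
    (-m.1 * m.2.2.2, m.2.1, m.2.2.1 + 2, m.2.2.2 + 1)]

theorem hasDerivAt_pow_log {h : ℝ → ℝ} {x φ : ℝ} (hh : HasDerivAt h (h x * φ) x) (i : ℕ) :
    HasDerivAt (fun y => h y ^ i) (i * h x ^ i * φ) x := by
  have := hh.fun_pow i
  cases i with
  | zero => simpa using hasDerivAt_const x (1 : ℝ)
  | succ i =>
    refine this.congr_deriv ?_
    simp only [Nat.add_sub_cancel]
    ring

theorem hasDerivAt_st {x : ℝ} (h0 : 0 < x) (h1 : x < 1) :
    HasDerivAt Real.smoothTransition (Real.smoothTransition x *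
      ((x⁻¹ ^ 2 + (1 - x)⁻¹ ^ 2) * (1 - Real.smoothTransition x))) x := by
  have hx : x ≠ 0 := h0.ne'
  have hx1 : 1 - x ≠ 0 := by linarith
  have d1 : HasDerivAt (fun y : ℝ => y⁻¹ - (1 - y)⁻¹) (-(x⁻¹ ^ 2 + (1 - x)⁻¹ ^ 2)) x := by
    have e1 := hasDerivAt_inv hx
    have e2 := ((hasDerivAt_id x).const_sub 1).fun_inv hx1
    refine (e1.fun_sub e2).congr_deriv ?_
    simp only [id]
    field_simp
    ring
  have hp : 1 + Real.exp (x⁻¹ - (1 - x)⁻¹) ≠ 0 := by positivity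
  have d2 := (d1.exp.const_add 1).fun_inv hp
  refine (d2.congr_of_eventuallyEq ?_).congr_deriv ?_
  · filter_upwards [Ioo_mem_nhds h0 h1] with y hy using st_eq hy.1 hy.2
  · rw [st_eq h0 h1]
    field_simp
    ring

theorem hasDerivAt_ev {x : ℝ} (h0 : 0 < x) (h1 : x < 1) (m : Mono) :
    HasDerivAt (fun y => ev y m) (((dm m).map (ev x)).sum) x := by
  have hx : x ≠ 0 := h0.ne'
  have hx1 : 1 - x ≠ 0 := by linarith
  have d1 : HasDerivAt (fun y : ℝ => y⁻¹) (x⁻¹ * (-x⁻¹)) x :=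
    (hasDerivAt_inv hx).congr_deriv (by field_simp)
  have d2 : HasDerivAt (fun y : ℝ => (1 - y)⁻¹) ((1 - x)⁻¹ * (1 - x)⁻¹) x :=
    (((hasDerivAt_id x).const_sub 1).fun_inv hx1).congr_deriv (by simp only [id]; field_simp)
  have d := (((hasDerivAt_pow_log d1 m.2.1).const_mul (m.1 : ℝ)).fun_mul
    (hasDerivAt_pow_log d2 m.2.2.1)).fun_mul (hasDerivAt_pow_log (hasDerivAt_st h0 h1) m.2.2.2)
  refine d.congr_deriv ?_
  simp only [dm, ev, List.map_cons, List.map_nil, List.sum_cons, List.sum_nil]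
  push_cast
  ring

theorem hasDerivAt_evL {x : ℝ} (h0 : 0 < x) (h1 : x < 1) (L : List Mono) :
    HasDerivAt (fun y => (L.map (ev y)).sum) (((L.flatMap dm).map (ev x)).sum) x := by
  induction L with
  | nil => simpa using hasDerivAt_const x (0 : ℝ)
  | cons m L ih =>
    simp only [List.map_cons, List.sum_cons, List.flatMap_cons, List.map_append, List.sum_append]
    exact (hasDerivAt_ev h0 h1 m).fun_add ih

/-- monomials of the `k`-th derivative -/
def dL (k : ℕ) : List Mono := (fun L => L.flatMap dm)^[k] [(1, 0, 0, 1)]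

theorem iter_st_mid (k : ℕ) : ∀ x ∈ Ioo (0 : ℝ) 1,
    deriv^[k] Real.smoothTransition x = ((dL k).map (ev x)).sum := by
  induction k with
  | zero => intro x _; simp [dL, ev]
  | succ k ih =>
    intro x hx
    rw [Function.iterate_succ', Function.comp_apply]
    have : deriv^[k] Real.smoothTransition =ᶠ[𝓝 x] fun y => ((dL k).map (ev y)).sum := by
      filter_upwards [Ioo_mem_nhds hx.1 hx.2] with y hy using ih y hy
    rw [this.deriv_eq, (hasDerivAt_evL hx.1 hx.2 (dL k)).deriv]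
    simp only [dL, Function.iterate_succ', Function.comp_apply]

theorem iter_const_on {s : Set ℝ} (hs : IsOpen s) {c : ℝ}
    (h : ∀ x ∈ s, Real.smoothTransition x = c) (k : ℕ) :
    ∀ x ∈ closure s, deriv^[k] Real.smoothTransition x = if k = 0 then c else 0 := by
  have h1 : ∀ x ∈ s, deriv^[k] Real.smoothTransition x = if k = 0 then c else 0 := by
    induction k with
    | zero => simpa using h
    | succ k ih =>
      intro x hx
      rw [Function.iterate_succ', Function.comp_apply]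
      have : deriv^[k] Real.smoothTransition =ᶠ[𝓝 x] fun _ => if k = 0 then c else 0 := by
        filter_upwards [hs.mem_nhds hx] with y hy using ih y hy
      rw [this.deriv_eq]
      simp
  have hc : Continuous (deriv^[k] Real.smoothTransition) :=
    (ContDiff.iterate_deriv k (Real.smoothTransition.contDiff (n := ⊤))).continuous
  exact Set.EqOn.closure (f := deriv^[k] Real.smoothTransition)
    (g := fun _ => if k = 0 then c else 0) h1 hc continuous_const

theorem prr_iter_st : PRR fun p : ℕ × ℚ => deriv^[p.1] Real.smoothTransition p.2 := by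
  have hdm : Primrec dm := by unfold dm; fun_prop
  have hdL : Primrec dL := by unfold dL; fun_prop
  have hev : PRR fun p : (ℕ × ℚ) × Mono => ev p.1.2 p.2 := by
    have h1 : PRR fun p : (ℕ × ℚ) × Mono =>
        ((p.2.1 * p.1.2⁻¹ ^ p.2.2.1 * (1 - p.1.2)⁻¹ ^ p.2.2.2.1 : ℚ) : ℝ) := PRR.rat (by fun_prop)
    have h2 : PRR fun p : (ℕ × ℚ) × Mono => Real.smoothTransition p.1.2 ^ p.2.2.2.2 :=
      (prr_st.comp (f := fun p : (ℕ × ℚ) × Mono => p.1.2) (by fun_prop)).pow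
        (fun p => by
          rw [abs_of_nonneg (Real.smoothTransition.nonneg _)]
          exact Real.smoothTransition.le_one _) (by fun_prop)
    exact (h1.mul h2).of_eq fun p => by simp [ev]
  have hmid := hev.list_sum (L := fun p : ℕ × ℚ => dL p.1) (by fun_prop)
  have h0 : PRR fun _ : ℕ × ℚ => ((0 : ℚ) : ℝ) := PRR.rat (by fun_prop)
  have h1 : PRR fun p : ℕ × ℚ => ((if p.1 = 0 then 1 else 0 : ℚ) : ℝ) := PRR.rat (by fun_prop)
  refine (PRR.ite (c := fun p : ℕ × ℚ => p.2 ≤ 0) (by fun_prop) h0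
    (PRR.ite (c := fun p : ℕ × ℚ => 1 ≤ p.2) (by fun_prop) h1 hmid)).of_eq fun p => ?_
  split_ifs with c1 c2 c3
  · rw [iter_const_on isOpen_Iio (c := 0)
      (fun x hx => Real.smoothTransition.zero_of_nonpos (le_of_lt hx)) p.1 p.2
      (by rw [closure_Iio, mem_Iic]; exact_mod_cast c1)]
    simp
  · rw [iter_const_on isOpen_Ioi (c := 1)
      (fun x hx => Real.smoothTransition.one_of_one_le (le_of_lt hx)) p.1 p.2
      (by rw [closure_Ioi, mem_Ici]; exact_mod_cast c2)]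
    simp [c3]
  · rw [iter_const_on isOpen_Ioi (c := 1)
      (fun x hx => Real.smoothTransition.one_of_one_le (le_of_lt hx)) p.1 p.2
      (by rw [closure_Ioi, mem_Ici]; exact_mod_cast c2)]
    simp [c3]
  · rw [iter_st_mid p.1 p.2 ⟨by exact_mod_cast not_le.1 c1, by exact_mod_cast not_le.1 c2⟩]

end Vale.Agent.P113.Eff
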