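import Vale.Agent.P113.Shear
import Vale.Agent.P113.PrimReal

/-!
The force of a primitive recursive sequence of shears is effective, uniformly in a parameter.
-/

namespace Vale.Agent.P113

open Set Filter Topology Eff

/-- iterated derivative of the plateau composed with an affine map -/
noncomputable def hb (N k n : ℕ) (v : ℝ) : ℝ :=
  (8 * N : ℝ) ^ n * (deriv^[n] Real.smoothTransition (8 * (N * v - k) + 1) -
    deriv^[n] Real.smoothTransition (8 * (N * v - k) - 4))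

theorem hasDerivAt_iter_st (n : ℕ) (x : ℝ) :
    HasDerivAt (deriv^[n] Real.smoothTransition) (deriv^[n + 1] Real.smoothTransition x) x := by
  rw [Function.iterate_succ', Function.comp_apply]
  exact (sm_st.iter n).hasDerivAt x

theorem hasDerivAt_hb (N k n : ℕ) (v : ℝ) : HasDerivAt (hb N k n) (hb N k (n + 1) v) v := by
  have d0 : HasDerivAt (fun v : ℝ => 8 * ((N : ℝ) * v - k)) (8 * N) v := by
    simpa using (((hasDerivAt_id v).const_mul (N : ℝ)).sub_const (k : ℝ)).const_mul 8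
  have d1 := (hasDerivAt_iter_st n _).comp v (d0.add_const 1)
  have d2 := (hasDerivAt_iter_st n _).comp v (d0.sub_const 4)
  refine ((d1.fun_sub d2).const_mul ((8 * N : ℝ) ^ n)).congr_deriv ?_
  unfold hb
  ring

theorem iter_atom0 (a : Atom) (n : ℕ) : deriv^[n] (atom0 a) = fun v =>
    if a.2.2 = 0 then hb a.1 a.2.1 n v else hb a.1 a.2.1 n v * v + n * hb a.1 a.2.1 (n - 1) v := by
  induction n with
  | zero =>
    funext v
    simp only [Function.iterate_zero, id, atom0, hb, beta]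
    split_ifs <;> simp
  | succ n ih =>
    rw [Function.iterate_succ', Function.comp_apply, ih]
    funext v
    by_cases h : a.2.2 = 0
    · simp only [if_pos h]
      exact (hasDerivAt_hb _ _ _ v).deriv
    · simp only [if_neg h]
      have d := ((hasDerivAt_hb a.1 a.2.1 n v).fun_mul (hasDerivAt_id' v)).fun_add
        ((hasDerivAt_hb a.1 a.2.1 (n - 1) v).const_mul (n : ℝ))
      rw [d.deriv]
      cases n with
      | zero => simp
      | succ n => simp only [Nat.add_sub_cancel]; push_cast; ring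

theorem iter_sig (n : ℕ) :
    deriv^[n] sig = fun t => 3 ^ n * deriv^[n] Real.smoothTransition (3 * t - 1) := by
  induction n with
  | zero => funext t; simp [sig]
  | succ n ih =>
    rw [Function.iterate_succ', Function.comp_apply, ih]
    funext t
    have d0 : HasDerivAt (fun t : ℝ => 3 * t - 1) 3 t := by
      simpa using ((hasDerivAt_id t).const_mul (3 : ℝ)).sub_const 1
    have d1 := ((hasDerivAt_iter_st n _).comp t d0).const_mul ((3 : ℝ) ^ n)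
    refine d1.deriv.trans ?_
    rw [Function.iterate_succ']
    ring

theorem prr_hb : PRR fun p : (ℕ × ℕ × ℕ) × ℚ => hb p.1.1 p.1.2.1 p.1.2.2 p.2 := by
  have h1 : PRR fun p : (ℕ × ℕ × ℕ) × ℚ => (((8 * p.1.1 : ℚ) ^ p.1.2.2 : ℚ) : ℝ) :=
    PRR.rat (by fun_prop)
  have h2 := prr_iter_st.comp
    (f := fun p : (ℕ × ℕ × ℕ) × ℚ => (p.1.2.2, 8 * (p.1.1 * p.2 - p.1.2.1) + 1)) (by fun_prop)
  have h3 := prr_iter_st.comp
    (f := fun p : (ℕ × ℕ × ℕ) × ℚ => (p.1.2.2, 8 * (p.1.1 * p.2 - p.1.2.1) - 4)) (by fun_prop)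
  exact (h1.mul (h2.sub h3)).of_eq fun p => by simp [hb]

theorem prr_atom0 : PRR fun p : Atom × ℕ × ℚ => deriv^[p.2.1] (atom0 p.1) p.2.2 := by
  have h1 := prr_hb.comp
    (f := fun p : Atom × ℕ × ℚ => ((p.1.1, p.1.2.1, p.2.1), p.2.2)) (by fun_prop)
  have h2 := prr_hb.comp
    (f := fun p : Atom × ℕ × ℚ => ((p.1.1, p.1.2.1, p.2.1 - 1), p.2.2)) (by fun_prop)
  have h3 : PRR fun p : Atom × ℕ × ℚ => (p.2.2 : ℝ) := PRR.rat (by fun_prop)
  have h4 : PRR fun p : Atom × ℕ × ℚ => (((p.2.1 : ℕ) : ℚ) : ℝ) := PRR.rat (by fun_prop)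
  refine (PRR.ite (c := fun p : Atom × ℕ × ℚ => p.1.2.2 = 0) (by fun_prop) h1
    ((h1.mul h3).add (h4.mul h2))).of_eq fun p => ?_
  rw [iter_atom0]
  simp

theorem prr_uf : PRR fun p : (Fin 3 × Fin 3) × Atom × ℕ × ℚ =>
    deriv^[p.2.2.1] (uf p.1.1 p.1.2 p.2.1) p.2.2.2 := by
  have hfl : Primrec fun p : (Fin 3 × Fin 3) × Atom × ℕ × ℚ => ((⌊p.2.2.2 + 1 / 4⌋ : ℤ) : ℚ) :=
    pq_intFloor (by fun_prop)
  have h1 := prr_atom0.comp (f := fun p : (Fin 3 × Fin 3) × Atom × ℕ × ℚ =>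
    (p.2.1, p.2.2.1, p.2.2.2 - ((⌊p.2.2.2 + 1 / 4⌋ : ℤ) : ℚ)))
    (Primrec.pair (by fun_prop) (Primrec.pair (by fun_prop) (pq_sub (by fun_prop) hfl)))
  have h2 : PRR fun p : (Fin 3 × Fin 3) × Atom × ℕ × ℚ =>
      ((if p.2.2.1 = 0 then 1 else 0 : ℚ) : ℝ) := PRR.rat (by fun_prop)
  refine (PRR.ite (c := fun p : (Fin 3 × Fin 3) × Atom × ℕ × ℚ => p.1.1 = p.1.2) (by fun_prop) h2
    (PRR.ite (c := fun p : (Fin 3 × Fin 3) × Atom × ℕ × ℚ => 2 * p.2.1.2.1 + 1 ≤ p.2.1.1)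
      (by fun_prop) h1 h2)).of_eq fun p => ?_
  unfold uf
  have e : ((if p.2.2.1 = 0 then 1 else 0 : ℚ) : ℝ) = if p.2.2.1 = 0 then 1 else 0 := by
    split_ifs <;> simp
  rw [e]
  by_cases h : p.1.1 = p.1.2
  · rw [if_pos h, if_pos h, iter_deriv_const]
  · rw [if_neg h, if_neg h, iter_atom]
    have : ⌊((p.2.2.2 : ℚ) : ℝ) + 1 / 4⌋ = ⌊p.2.2.2 + 1 / 4⌋ := by
      rw [← Rat.floor_cast (α := ℝ)]; push_cast; rfl
    rw [this]
    simp

theorem prr_sig : PRR fun p : ℕ × ℚ => deriv^[p.1] sig p.2 := by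
  have h1 : PRR fun p : ℕ × ℚ => (((3 : ℚ) ^ p.1 : ℚ) : ℝ) := PRR.rat (by fun_prop)
  have h2 := prr_iter_st.comp (f := fun p : ℕ × ℚ => (p.1, 3 * p.2 - 1)) (by fun_prop)
  exact (h1.mul h2).of_eq fun p => by rw [iter_sig]; simp

/-- arguments of `wW` -/
abbrev WArg := (Fin 3 × List Term) × (ℚ × ℚ × ℚ × ℚ) × (ℕ × ℕ × ℕ × ℕ)

theorem prr_wW : PRR fun p : WArg => wW p.1.1 p.1.2 p.2.1.1
    ![(p.2.1.2.1 : ℝ), p.2.1.2.2.1, p.2.1.2.2.2] p.2.2.1 p.2.2.2.1 p.2.2.2.2.1 p.2.2.2.2.2 := by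
  have h0 : PRR fun p : WArg × Term => (p.2.1 : ℝ) := PRR.rat (by fun_prop)
  have h1 := prr_sig.comp (f := fun p : WArg × Term => (p.1.2.2.1 + 1, p.1.2.1.1)) (by fun_prop)
  have h2 := prr_uf.comp (f := fun p : WArg × Term =>
    ((p.1.1.1, (0 : Fin 3)), p.2.2.1, p.1.2.2.2.1, p.1.2.1.2.1)) (by fun_prop)
  have h3 := prr_uf.comp (f := fun p : WArg × Term =>
    ((p.1.1.1, (1 : Fin 3)), p.2.2.2.1, p.1.2.2.2.2.1, p.1.2.1.2.2.1)) (by fun_prop)
  have h4 := prr_uf.comp (f := fun p : WArg × Term =>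
    ((p.1.1.1, (2 : Fin 3)), p.2.2.2.2, p.1.2.2.2.2.2, p.1.2.1.2.2.2)) (by fun_prop)
  have h5 := ((h0.mul h1).mul ((h2.mul h3).mul h4)).list_sum (L := fun p : WArg => p.1.2)
    (by fun_prop)
  exact h5.of_eq fun p => by simp [wW]

theorem ratv_eq (r : ℕ × ℕ × ℕ) : ratv r = (ofT r : ℝ) := by simp [ratv, ofT]

theorem natFloor_cast (q : ℚ) : ⌊(q : ℝ)⌋₊ = ⌊q⌋₊ := by
  rw [← Int.floor_toNat, ← Int.floor_toNat, Rat.floor_cast]

theorem inv_le_ratv {r : ℕ × ℕ × ℕ} (h : 0 < ratv r) : 1 / ((r.2.2 : ℝ) + 1) ≤ ratv r := by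
  unfold ratv at *
  have h1 : (0 : ℝ) < (r.1 : ℝ) - r.2.1 := (div_pos_iff_of_pos_right (by positivity)).1 h
  have h2 : r.2.1 + 1 ≤ r.1 := by
    have : (r.2.1 : ℝ) < r.1 := by linarith
    exact_mod_cast this
  have h3 : (r.2.1 : ℝ) + 1 ≤ r.1 := by exact_mod_cast h2
  exact div_le_div_of_nonneg_right (by linarith) (by positivity)

/-- queries to the program -/
abbrev Qy := (ℕ × ℕ × ℕ × ℕ) × ℕ ×
  ((ℕ × ℕ × ℕ) × (ℕ × ℕ × ℕ) × (ℕ × ℕ × ℕ) × (ℕ × ℕ × ℕ)) × (ℕ × ℕ × ℕ)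

theorem exists_compile {P : Type} [Primcodable P] (cs : P → ℕ → Fin 3) (Ls : P → ℕ → List Term)
    (hcs : Primrec fun p : P × ℕ => cs p.1 p.2) (hLs : Primrec fun p : P × ℕ => Ls p.1 p.2)
    {ν : ℝ} (hν : ComputableReal ν) :
    ∃ compile : P → Nat.Partrec.Code, Computable compile ∧
      ∀ p, Computes (compile p) (ff (cs p) (Ls p) ν) := by
  obtain ⟨an, han, hap⟩ := hν
  let m : P × Qy → ℕ := fun z => ⌊ofT z.2.2.2.1.1⌋₊
  have hm : Primrec m := by fun_prop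
  let arg : ℕ × ℕ × ℕ × ℕ → P × Qy → WArg := fun s z =>
    ((cs z.1 (m z), Ls z.1 (m z)),
      (ofT z.2.2.2.1.1 - m z, ofT z.2.2.2.1.2.1, ofT z.2.2.2.1.2.2.1, ofT z.2.2.2.1.2.2.2),
      (z.2.1.1 + s.1, z.2.1.2.1 + s.2.1, z.2.1.2.2.1 + s.2.2.1, z.2.1.2.2.2 + s.2.2.2))
  have hc : Primrec fun z : P × Qy => cs z.1 (m z) := hcs.comp (Primrec.fst.pair hm)
  have hL : Primrec fun z : P × Qy => Ls z.1 (m z) := hLs.comp (Primrec.fst.pair hm)
  have harg : ∀ s, Primrec (arg s) := fun s => (hc.pair hL).pair (by fun_prop)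
  let W : ℕ × ℕ × ℕ × ℕ → P × Qy → ℝ := fun s z => wW (arg s z).1.1 (arg s z).1.2 (arg s z).2.1.1
    ![((arg s z).2.1.2.1 : ℝ), (arg s z).2.1.2.2.1, (arg s z).2.1.2.2.2] (arg s z).2.2.1
    (arg s z).2.2.2.1 (arg s z).2.2.2.2.1 (arg s z).2.2.2.2.2
  have hW : ∀ s, PRR (W s) := fun s => prr_wW.comp (harg s)
  have hcond : PrimrecPred fun z : P × Qy => z.2.2.1 = (cs z.1 (m z)).val :=
    pp_eq (by fun_prop) (Primrec.fin_val.comp hc)
  have h0 : PRR fun _ : P × Qy => ((0 : ℚ) : ℝ) := PRR.rat (by fun_prop)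
  let G1 : P × Qy → ℝ := fun z => if z.2.2.1 = (cs z.1 (m z)).val then W (1, 0, 0, 0) z
    else ((0 : ℚ) : ℝ)
  let G2 : P × Qy → ℝ := fun z => if z.2.2.1 = (cs z.1 (m z)).val then
    W (0, 2, 0, 0) z + W (0, 0, 2, 0) z + W (0, 0, 0, 2) z else ((0 : ℚ) : ℝ)
  have hG1 : PRR G1 := PRR.ite hcond (hW _) h0
  have hG2 : PRR G2 := PRR.ite hcond (((hW _).add (hW _)).add (hW _)) h0
  have hH : PRR fun y : (P × Qy) × ℚ => G1 y.1 - (y.2 : ℝ) * G2 y.1 :=
    (hG1.comp Primrec.fst).sub ((PRR.rat Primrec.snd).mul (hG2.comp Primrec.fst))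
  obtain ⟨A, hA, hAe⟩ := hH
  obtain ⟨B, hB, hBe⟩ := hG2
  let N : P × Qy → ℕ := fun z => (⌊|B (z, 0)|⌋₊ + 2) * (2 * z.2.2.2.2.2.2 + 2)
  have hN : Primrec N := by fun_prop
  let F : (P × Qy) × (ℕ × ℕ × ℕ) → ℕ × ℕ × ℕ := fun y =>
    toT (A ((y.1, ofT y.2), 2 * y.1.2.2.2.2.2.2 + 1))
  have hF : Primrec F := by fun_prop
  let out : P × Qy → ℕ × ℕ × ℕ := fun z => F (z, an (N z))
  have hout : Computable out := hF.to_comp.comp (Computable.id.pair (han.comp hN.to_comp))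
  obtain ⟨code, hcode⟩ := Nat.Partrec.Code.exists_code.1 hout
  refine ⟨fun p => code.curry (Encodable.encode p),
    (Nat.Partrec.Code.primrec₂_curry.comp (Primrec.const code) Primrec.encode).to_comp, ?_⟩
  intro p a b c d j t x₀ x₁ x₂ ε _ hε
  let z : P × Qy := (p, (a, b, c, d), j.val, (t, x₀, x₁, x₂), ε)
  refine ⟨out z, ?_, ?_⟩
  · rw [Nat.Partrec.Code.eval_curry, hcode]
    have : Nat.pair (Encodable.encode p)
        (Encodable.encode ((a, b, c, d), j.val, (t, x₀, x₁, x₂), ε)) = Encodable.encode z := rfl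
    rw [this]
    simp only [Encodable.encodek, Part.coe_some, Part.bind_some, PFun.coe_val, Part.map_some,
      Part.mem_some_iff]
  · have hval : mixed a b c d (comp (ff (cs p) (Ls p) ν) j) (ratv t)
        ![ratv x₀, ratv x₁, ratv x₂] = G1 z - ν * G2 z := by
      rw [mixed_ff]
      simp only [ratv_eq, natFloor_cast, G1, G2, W, arg, z, m, Fin.ext_iff]
      split_ifs
      · push_cast
        rfl
      · simp
    rw [hval]
    have e1 : ratv (out z) = A ((z, ofT (an (N z))), 2 * ε.2.2 + 1) := by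
      rw [ratv_eq]; simp only [out, F, ofT_toT]; rfl
    rw [e1]
    have h1 := hAe (z, ofT (an (N z))) (2 * ε.2.2 + 1)
    have h2 := hap (N z)
    have h3 := hBe z 0
    have h4 : |(B (z, 0) : ℝ)| < ⌊|B (z, 0)|⌋₊ + 1 := by exact_mod_cast Nat.lt_floor_add_one _
    simp only [Nat.cast_zero, zero_add, div_one] at h3
    have h5 : |G2 z| ≤ ⌊|B (z, 0)|⌋₊ + 2 := by
      have := abs_sub_abs_le_abs_sub (G2 z) (B (z, 0))
      rw [abs_sub_comm] at this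
      linarith
    have h6 := mul_le_mul h2 h5 (abs_nonneg _) (by positivity)
    have h7 : 1 / ((N z : ℝ) + 1) * (⌊|B (z, 0)|⌋₊ + 2) ≤ 1 / ((ε.2.2 : ℝ) + 1) / 2 := by
      rw [div_div, div_mul_eq_mul_div, div_le_div_iff₀ (by positivity) (by positivity)]
      simp only [N, z]
      push_cast
      linarith
    have h8 : 1 / (((2 * ε.2.2 + 1 : ℕ) : ℝ) + 1) = 1 / ((ε.2.2 : ℝ) + 1) / 2 := by
      push_cast; field_simp; ring
    rw [h8] at h1
    rw [← abs_mul, ratv_eq] at h6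
    have h9 := inv_le_ratv hε
    dsimp only at h1
    rw [abs_le] at h1 h6 ⊢
    constructor <;> nlinarith [h1.1, h1.2, h6.1, h6.2]

end Vale.Agent.P113
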