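import Vale.Agent.P113.Defs

/-!
A reversible two-stack machine simulating a Turing machine.
-/

namespace Vale.Agent.P113

/-- machine part of a description -/
abbrev Rm := (ℕ × ℕ × ℕ) × List Bool × List (List (ℕ × ℕ × Bool))

/-- alphabet size -/
def nG (r : Rm) : ℕ := r.1.1 + 1

/-- bound on stack symbols -/
def nK (r : Rm) : ℕ := nG r + 4 * (r.1.2.1 + 1) * (nG r + 1)

/-- base -/
def nB (r : Rm) : ℕ := 4 * nK r + 2

/-- transition table lookup -/
def tr (r : Rm) (q a : ℕ) : ℕ × ℕ × Bool := (r.2.2.getD q []).getD a (0, 0, false)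

/-- digit of a mode -/
def dig (r : Rm) (μ : ℕ) : ℕ := μ + if r.2.1.getD (μ / 4) false = true then nK r + 1 else 0

/-- direction as a number -/
def dirN (r : Rm) (q a : ℕ) : ℕ := if (tr r q a).2.2 = true then 1 else 0

/-- next mode -/
def nxt (r : Rm) (μ s : ℕ) : ℕ :=
  if μ % 2 = 0 then
    (if s < nG r then 4 * (tr r (μ / 4) s).1 + 2 * dirN r (μ / 4) s +
      (if dirN r (μ / 4) s = μ / 2 % 2 then 1 else 0) else μ + 1)
  else μ - 1

/-- symbol pushed -/
def outS (r : Rm) (μ s : ℕ) : ℕ := if μ % 2 = 0 ∧ s < nG r then (tr r (μ / 4) s).2.1 else s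

/-- history record pushed -/
def recS (r : Rm) (μ s : ℕ) : ℕ := nG r + (μ * (nG r + 1) + min s (nG r))

/-- configurations of the two-stack machine -/
abbrev MC := ℕ × List ℕ × List ℕ

/-- one step of the two-stack machine -/
def micro (r : Rm) (S : MC) : MC :=
  if nxt r S.1 (S.2.1.headD 0) % 2 = 1 then
    (nxt r S.1 (S.2.1.headD 0),
      recS r S.1 (S.2.1.headD 0) :: outS r S.1 (S.2.1.headD 0) :: S.2.2, S.2.1.tail)
  else
    (nxt r S.1 (S.2.1.headD 0), S.2.2,
      recS r S.1 (S.2.1.headD 0) :: outS r S.1 (S.2.1.headD 0) :: S.2.1.tail)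

/-- all symbols are in range -/
def Valid (r : Rm) (S : MC) : Prop :=
  S.1 < 4 * (r.1.2.1 + 1) ∧ (∀ s ∈ S.2.1, s < nK r) ∧ ∀ s ∈ S.2.2, s < nK r

/-- the table has entries in range -/
def WF (r : Rm) : Prop :=
  ∀ q a, q < r.1.2.1 + 1 → a < nG r → (tr r q a).1 < r.1.2.1 + 1 ∧ (tr r q a).2.1 < nG r

theorem nG_pos (r : Rm) : 0 < nG r := Nat.succ_pos _

theorem nG_lt_nK (r : Rm) : nG r < nK r := by
  unfold nK
  have : 0 < 4 * (r.1.2.1 + 1) * (nG r + 1) := by positivity
  omega

theorem mode_le_nK (r : Rm) : 4 * (r.1.2.1 + 1) ≤ nK r := by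
  unfold nK
  nlinarith [nG_pos r]

theorem headD_lt {r : Rm} {l : List ℕ} (h : ∀ s ∈ l, s < nK r) : l.headD 0 < nK r := by
  cases l with
  | nil => exact (nG_pos r).trans (nG_lt_nK r)
  | cons a l => exact h a List.mem_cons_self

theorem dirN_le (r : Rm) (q a : ℕ) : dirN r q a ≤ 1 := by
  unfold dirN; split_ifs <;> omega

theorem nxt_lt {r : Rm} (hr : WF r) {μ : ℕ} (h : μ < 4 * (r.1.2.1 + 1)) (s : ℕ) :
    nxt r μ s < 4 * (r.1.2.1 + 1) := by
  unfold nxt
  have h2 := dirN_le r (μ / 4) s
  split_ifs with h1 h3 h4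
  · have := (hr (μ / 4) s (by omega) h3).1
    omega
  · have := (hr (μ / 4) s (by omega) h3).1
    omega
  · omega
  · omega

theorem recS_lt {r : Rm} {μ : ℕ} (h : μ < 4 * (r.1.2.1 + 1)) (s : ℕ) : recS r μ s < nK r := by
  unfold recS nK
  have h1 : min s (nG r) ≤ nG r := min_le_right _ _
  have h2 : (μ + 1) * (nG r + 1) ≤ 4 * (r.1.2.1 + 1) * (nG r + 1) := Nat.mul_le_mul_right _ h
  nlinarith

theorem outS_lt {r : Rm} (hr : WF r) {μ s : ℕ} (h : μ < 4 * (r.1.2.1 + 1)) (hs : s < nK r) :
    outS r μ s < nK r := by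
  unfold outS
  split_ifs with h1
  · exact (hr (μ / 4) s (by omega) h1.2).2.trans (nG_lt_nK r)
  · exact hs

theorem Valid.micro {r : Rm} (hr : WF r) {S : MC} (h : Valid r S) : Valid r (micro r S) := by
  obtain ⟨h1, h2, h3⟩ := h
  have e1 := nxt_lt hr h1 (S.2.1.headD 0)
  have e2 := recS_lt h1 (S.2.1.headD 0)
  have e3 := outS_lt hr h1 (headD_lt h2)
  have e4 : ∀ s ∈ S.2.1.tail, s < nK r := fun s hs => h2 s (List.mem_of_mem_tail hs)
  unfold P113.micro
  split_ifs
  · refine ⟨e1, ?_, e4⟩
    simp only [List.mem_cons]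
    rintro s (rfl | rfl | hs)
    exacts [e2, e3, h3 s hs]
  · refine ⟨e1, h3, ?_⟩
    simp only [List.mem_cons]
    rintro s (rfl | rfl | hs)
    exacts [e2, e3, e4 s hs]

/-- the `k`-th tape symbol of a stack -/
def sym (G : ℕ) (l : List ℕ) (k : ℕ) : ℕ := (l.filter fun s => s < G).getD k 0

theorem sym_inert {G s : ℕ} (h : ¬s < G) (l : List ℕ) : sym G (s :: l) = sym G l := by
  funext k; simp [sym, h]

theorem sym_zero {G s : ℕ} (h : s < G) (l : List ℕ) : sym G (s :: l) 0 = s := by
  simp [sym, h]

theorem sym_succ {G s : ℕ} (h : s < G) (l : List ℕ) (k : ℕ) :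
    sym G (s :: l) (k + 1) = sym G l k := by
  simp [sym, h]

theorem sym_head {G : ℕ} (hG : 0 < G) (l : List ℕ) : sym G (l.headD 0 :: l.tail) = sym G l := by
  cases l with
  | nil =>
    funext k
    cases k <;> simp [sym, hG]
  | cons a l => rfl

/-- the tape seen from the head in direction `σ` -/
def RelT (G : ℕ) (tape : ℤ → ℕ) (h σ : ℤ) (ah bh : List ℕ) : Prop :=
  ∀ k : ℕ, tape (h + σ * k) = sym G ah k ∧ tape (h - σ * (k + 1)) = sym G bh k

theorem RelT.keep {G : ℕ} {tape : ℤ → ℕ} {h σ : ℤ} (hσ : σ = 1 ∨ σ = -1) {s b : ℕ}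
    {ah bh : List ℕ} (hs : s < G) (hb : b < G) (H : RelT G tape h σ (s :: ah) bh) :
    RelT G (Function.update tape h b) (h + σ) σ ah (b :: bh) := by
  intro k
  constructor
  · have e : h + σ + σ * k = h + σ * ((k + 1 : ℕ) : ℤ) := by push_cast; ring
    rw [e, Function.update_of_ne (by rcases hσ with rfl | rfl <;> omega), (H (k + 1)).1,
      sym_succ hs]
  · cases k with
    | zero =>
      have e : h + σ - σ * (((0 : ℕ) : ℤ) + 1) = h := by push_cast; ring
      rw [e, Function.update_self, sym_zero hb]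
    | succ k =>
      have e : h + σ - σ * (((k + 1 : ℕ) : ℤ) + 1) = h - σ * (k + 1) := by push_cast; ring
      rw [e, Function.update_of_ne (by rcases hσ with rfl | rfl <;> omega), (H k).2, sym_succ hb]

theorem RelT.turn {G : ℕ} {tape : ℤ → ℕ} {h σ : ℤ} (hσ : σ = 1 ∨ σ = -1) {s b : ℕ}
    {ah bh : List ℕ} (hs : s < G) (hb : b < G) (H : RelT G tape h σ (s :: ah) bh) :
    RelT G (Function.update tape h b) (h + -σ) (-σ) bh (b :: ah) := by
  intro k
  constructor
  · have e : h + -σ + -σ * k = h - σ * (k + 1) := by ring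
    rw [e, Function.update_of_ne (by rcases hσ with rfl | rfl <;> omega), (H k).2]
  · cases k with
    | zero =>
      have e : h + -σ - -σ * (((0 : ℕ) : ℤ) + 1) = h := by push_cast; ring
      rw [e, Function.update_self, sym_zero hb]
    | succ k =>
      have e : h + -σ - -σ * (((k + 1 : ℕ) : ℤ) + 1) = h + σ * ((k + 1 : ℕ) : ℤ) := by
        push_cast; ring
      rw [e, Function.update_of_ne (by rcases hσ with rfl | rfl <;> omega), (H (k + 1)).1,
        sym_succ hs, sym_succ hb]

/-- machine part of the description of `M` -/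
def Machine.rm (M : Machine) : Rm :=
  ((M.g, M.m, M.start.val), List.ofFn M.halting,
    List.ofFn fun q => List.ofFn fun a =>
      ((M.next q a).1.val, (M.next q a).2.1.val, (M.next q a).2.2))

theorem tr_rm (M : Machine) (q : Fin (M.m + 1)) (a : Fin (M.g + 1)) :
    tr M.rm q a = ((M.next q a).1.val, (M.next q a).2.1.val, (M.next q a).2.2) := by
  unfold tr Machine.rm
  simp only [List.getD_eq_getElem?_getD, List.getElem?_ofFn, q.isLt, a.isLt, dif_pos,
    Option.getD_some]

theorem hlt_rm (M : Machine) (q : Fin (M.m + 1)) : M.rm.2.1.getD q false = M.halting q := by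
  unfold Machine.rm
  simp only [List.getD_eq_getElem?_getD, List.getElem?_ofFn, q.isLt, dif_pos, Option.getD_some]

theorem wf_rm (M : Machine) : WF M.rm := by
  intro q a hq ha
  have := tr_rm M ⟨q, hq⟩ ⟨a, ha⟩
  simp only at this
  rw [this]
  exact ⟨(M.next _ _).1.isLt, (M.next _ _).2.1.isLt⟩

/-- a step ignoring the halting flag -/
def Machine.stepN (M : Machine) (c : Config M) : Config M :=
  ⟨(M.next c.state (c.tape c.head)).1,
    Function.update c.tape c.head (M.next c.state (c.tape c.head)).2.1,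
    if (M.next c.state (c.tape c.head)).2.2 then c.head + 1 else c.head - 1⟩

theorem halts_iff (M : Machine) (w : List (Fin (M.g + 1))) :
    M.Halts w ↔ ∃ n, M.halting (M.stepN^[n] (M.init w)).state = true := by
  constructor
  · rintro ⟨n, hn⟩
    have key : ∀ n, (∃ k, M.halting (M.stepN^[k] (M.init w)).state = true) ∨
        M.step^[n] (M.init w) = M.stepN^[n] (M.init w) := by
      intro n
      induction n with
      | zero => exact Or.inr rfl
      | succ n ih =>
        rcases ih with h | h
        · exact Or.inl h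
        · by_cases h2 : M.halting (M.stepN^[n] (M.init w)).state = true
          · exact Or.inl ⟨n, h2⟩
          · right
            rw [Function.iterate_succ', Function.iterate_succ', Function.comp_apply,
              Function.comp_apply, h, Machine.step, if_neg h2]
            rfl
    rcases key n with h | h
    · exact h
    · exact ⟨n, h ▸ hn⟩
  · rintro ⟨n, hn⟩
    have key : ∀ n, M.Halts w ∨ M.step^[n] (M.init w) = M.stepN^[n] (M.init w) := by
      intro n
      induction n with
      | zero => exact Or.inr rfl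
      | succ n ih =>
        rcases ih with h | h
        · exact Or.inl h
        · by_cases h2 : M.halting (M.stepN^[n] (M.init w)).state = true
          · exact Or.inl ⟨n, h ▸ h2⟩
          · right
            rw [Function.iterate_succ', Function.iterate_succ', Function.comp_apply,
              Function.comp_apply, h, Machine.step, if_neg h2]
            rfl
    rcases key n with h | h
    · exact h
    · exact ⟨n, h ▸ hn⟩

/-- direction of a mode -/
def sgnM (μ : ℕ) : ℤ := if μ / 2 % 2 = 1 then 1 else -1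

theorem sgnM_or (μ : ℕ) : sgnM μ = 1 ∨ sgnM μ = -1 := by
  unfold sgnM; split_ifs <;> simp

/-- the two-stack configuration represents the machine configuration -/
def Rel (M : Machine) (c : Config M) (S : MC) : Prop :=
  S.1 / 4 = c.state.val ∧
    if S.1 % 2 = 0 then RelT (M.g + 1) (fun i => (c.tape i).val) c.head (sgnM S.1) S.2.1 S.2.2
    else RelT (M.g + 1) (fun i => (c.tape i).val) c.head (sgnM S.1) S.2.2 S.2.1

theorem recS_inert (r : Rm) (μ s : ℕ) : ¬recS r μ s < nG r := by
  unfold recS; omega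

theorem nG_rm (M : Machine) : nG M.rm = M.g + 1 := rfl

theorem Rel.swap {M : Machine} {c : Config M} {μ : ℕ} {A Y : List ℕ} (h : Rel M c (μ, A, Y))
    (hμ : μ % 2 = 1) :
    micro M.rm (μ, A, Y) = (μ - 1, Y, recS M.rm μ (A.headD 0) :: A.headD 0 :: A.tail) ∧
      Rel M c (μ - 1, Y, recS M.rm μ (A.headD 0) :: A.headD 0 :: A.tail) := by
  have e1 : nxt M.rm μ (A.headD 0) = μ - 1 := by unfold nxt; rw [if_neg (by omega)]
  have e2 : outS M.rm μ (A.headD 0) = A.headD 0 := by unfold outS; rw [if_neg (by omega)]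
  constructor
  · unfold micro
    simp only [e1, e2]
    rw [if_neg (by omega)]
  · obtain ⟨h1, h2⟩ := h
    dsimp only at h1 h2
    rw [if_neg (by omega)] at h2
    refine ⟨by dsimp only; omega, ?_⟩
    dsimp only
    rw [if_pos (by omega)]
    have e3 : sgnM (μ - 1) = sgnM μ := by
      unfold sgnM
      have : (μ - 1) / 2 = μ / 2 := by omega
      rw [this]
    intro k
    rw [e3, sym_inert (G := M.g + 1) (recS_inert M.rm μ _), sym_head (Nat.succ_pos _)]
    exact h2 k

theorem Rel.skip {M : Machine} {c : Config M} {μ s : ℕ} {A Y : List ℕ}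
    (h : Rel M c (μ, s :: A, Y)) (hμ : μ % 2 = 0) (hs : ¬s < M.g + 1) :
    micro M.rm (μ, s :: A, Y) = (μ + 1, recS M.rm μ s :: s :: Y, A) ∧
      Rel M c (μ + 1, recS M.rm μ s :: s :: Y, A) := by
  have e1 : nxt M.rm μ s = μ + 1 := by unfold nxt; rw [if_pos hμ, nG_rm, if_neg hs]
  have e2 : outS M.rm μ s = s := by unfold outS; rw [if_neg (fun h => hs h.2)]
  constructor
  · unfold micro
    simp only [List.headD_cons, e1, e2, List.tail_cons]
    rw [if_pos (by omega)]
  · obtain ⟨h1, h2⟩ := h
    dsimp only at h1 h2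
    rw [if_pos hμ] at h2
    refine ⟨by dsimp only; omega, ?_⟩
    dsimp only
    rw [if_neg (by omega)]
    have e3 : sgnM (μ + 1) = sgnM μ := by
      unfold sgnM
      have : (μ + 1) / 2 = μ / 2 := by omega
      rw [this]
    intro k
    have := h2 k
    rw [sym_inert hs] at this
    rw [e3, sym_inert (G := M.g + 1) (recS_inert M.rm μ _), sym_inert hs]
    exact this

theorem Rel.real {M : Machine} {c : Config M} {μ : ℕ} {A Y : List ℕ}
    (h : Rel M c (μ, A, Y)) (hμ : μ % 2 = 0) (hs : A.headD 0 < M.g + 1) :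
    Rel M (M.stepN c) (micro M.rm (μ, A, Y)) := by
  obtain ⟨h1, h2⟩ := h
  dsimp only at h1 h2
  rw [if_pos hμ] at h2
  have h3 : RelT (M.g + 1) (fun i => (c.tape i).val) c.head (sgnM μ) (A.headD 0 :: A.tail) Y := by
    intro k
    rw [sym_head (Nat.succ_pos _)]
    exact h2 k
  have h4 : A.headD 0 = (c.tape c.head).val := by
    have := (h3 0).1
    rw [sym_zero hs] at this
    simpa using this.symm
  have h5 := tr_rm M c.state (c.tape c.head)
  rw [← h1, ← h4] at h5
  set nx := M.next c.state (c.tape c.head) with hnx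
  have e0 : dirN M.rm (μ / 4) (A.headD 0) = if nx.2.2 = true then 1 else 0 := by
    unfold dirN; rw [h5]
  have e1 : nxt M.rm μ (A.headD 0) = 4 * nx.1.val + 2 * (if nx.2.2 = true then 1 else 0) +
      (if (if nx.2.2 = true then 1 else 0) = μ / 2 % 2 then 1 else 0) := by
    unfold nxt; rw [if_pos hμ, nG_rm, if_pos hs, e0, h5]
  have e2 : outS M.rm μ (A.headD 0) = nx.2.1.val := by
    unfold outS; rw [if_pos ⟨hμ, hs⟩, h5]
  have e3 : (fun i => ((M.stepN c).tape i).val) =
      Function.update (fun i => (c.tape i).val) c.head nx.2.1.val := by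
    funext i
    by_cases hi : i = c.head
    · subst hi; simp [Machine.stepN, hnx]
    · simp [Machine.stepN, hi]
  have k1 := h3.keep (sgnM_or μ) hs nx.2.1.isLt
  have k2 := h3.turn (sgnM_or μ) hs nx.2.1.isLt
  have e4 : (M.stepN c).state = nx.1 := rfl
  have e5 : (M.stepN c).head = if nx.2.2 = true then c.head + 1 else c.head - 1 := rfl
  have hin := recS_inert M.rm μ (A.headD 0)
  rw [nG_rm] at hin
  unfold micro Rel
  dsimp only
  rw [e3, e4, e5, e2]
  generalize nxt M.rm μ (A.headD 0) = n at e1
  have hd : μ / 2 % 2 = 0 ∨ μ / 2 % 2 = 1 := by omega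
  by_cases hb : nx.2.2 = true <;> rcases hd with hd | hd
  all_goals
    simp only [hb, hd, if_true, if_false, Bool.false_eq_true, one_ne_zero, zero_ne_one] at e1 ⊢
  · have s1 : sgnM μ = -1 := by unfold sgnM; rw [if_neg (by omega)]
    have s2 : sgnM n = 1 := by unfold sgnM; rw [if_pos (by omega)]
    rw [if_neg (by omega)]
    refine ⟨by dsimp only; omega, ?_⟩
    dsimp only
    rw [if_pos (by omega), s2]
    intro k
    rw [sym_inert hin]
    rw [s1, neg_neg] at k2
    exact k2 k
  · have s1 : sgnM μ = 1 := by unfold sgnM; rw [if_pos (by omega)]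
    have s2 : sgnM n = 1 := by unfold sgnM; rw [if_pos (by omega)]
    rw [if_pos (by omega)]
    refine ⟨by dsimp only; omega, ?_⟩
    dsimp only
    rw [if_neg (by omega), s2]
    intro k
    rw [sym_inert hin]
    rw [s1] at k1
    exact k1 k
  · have s1 : sgnM μ = -1 := by unfold sgnM; rw [if_neg (by omega)]
    have s2 : sgnM n = -1 := by unfold sgnM; rw [if_neg (by omega)]
    rw [if_pos (by omega)]
    refine ⟨by dsimp only; omega, ?_⟩
    dsimp only
    rw [if_neg (by omega), s2]
    intro k
    rw [sym_inert hin]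
    rw [s1] at k1
    exact k1 k
  · have s1 : sgnM μ = 1 := by unfold sgnM; rw [if_pos (by omega)]
    have s2 : sgnM n = -1 := by unfold sgnM; rw [if_neg (by omega)]
    rw [if_neg (by omega)]
    refine ⟨by dsimp only; omega, ?_⟩
    dsimp only
    rw [if_pos (by omega), s2]
    intro k
    rw [sym_inert hin]
    rw [s1] at k2
    exact k2 k

theorem Rel.step {M : Machine} {c : Config M} {S : MC} (h : Rel M c S) :
    Rel M c (micro M.rm S) ∨ Rel M (M.stepN c) (micro M.rm S) := by
  obtain ⟨μ, A, Y⟩ := S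
  by_cases hμ : μ % 2 = 0
  · by_cases hs : A.headD 0 < M.g + 1
    · exact Or.inr (h.real hμ hs)
    · cases A with
      | nil => simp at hs
      | cons s A =>
        left
        rw [(h.skip hμ hs).1]
        exact (h.skip hμ hs).2
  · left
    rw [(h.swap (by omega)).1]
    exact (h.swap (by omega)).2

theorem Rel.progress_read {M : Machine} {c : Config M} {μ : ℕ} (hμ : μ % 2 = 0) (A : List ℕ) :
    ∀ Y, Rel M c (μ, A, Y) → ∃ n, Rel M (M.stepN c) ((micro M.rm)^[n] (μ, A, Y)) := by
  induction A with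
  | nil => exact fun Y h => ⟨1, h.real hμ (Nat.succ_pos _)⟩
  | cons s A ih =>
    intro Y h
    by_cases hs : s < M.g + 1
    · exact ⟨1, h.real hμ hs⟩
    · obtain ⟨e1, h1⟩ := h.skip hμ hs
      obtain ⟨e2, h2⟩ := h1.swap (by omega)
      rw [Nat.add_sub_cancel] at e2 h2
      obtain ⟨n, hn⟩ := ih _ h2
      refine ⟨n + 1 + 1, ?_⟩
      rw [Function.iterate_succ, Function.comp_apply, e1, Function.iterate_succ,
        Function.comp_apply, e2]
      exact hn

theorem Rel.progress {M : Machine} {c : Config M} {S : MC} (h : Rel M c S) :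
    ∃ n, Rel M (M.stepN c) ((micro M.rm)^[n] S) := by
  obtain ⟨μ, A, Y⟩ := S
  by_cases hμ : μ % 2 = 0
  · exact Rel.progress_read hμ A Y h
  · obtain ⟨e2, h2⟩ := h.swap (by omega)
    obtain ⟨n, hn⟩ := Rel.progress_read (by omega) _ _ h2
    refine ⟨n + 1, ?_⟩
    rw [Function.iterate_succ, Function.comp_apply, e2]
    exact hn

/-- initial configuration of the two-stack machine -/
def startS (r : Rm) (w : List ℕ) : MC := (4 * r.1.2.2 + 2, w, [])

theorem rel_start (M : Machine) (w : List (Fin (M.g + 1))) :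
    Rel M (M.init w) (startS M.rm (w.map Fin.val)) := by
  refine ⟨by simp only [startS, Machine.rm, Machine.init]; omega, ?_⟩
  have h1 : (startS M.rm (w.map Fin.val)).1 % 2 = 0 := by simp only [startS]; omega
  have h2 : sgnM (startS M.rm (w.map Fin.val)).1 = 1 := by
    unfold sgnM; rw [if_pos (by simp only [startS]; omega)]
  rw [if_pos h1, h2]
  intro k
  constructor
  · have : (w.map Fin.val).filter (fun s => decide (s < M.g + 1)) = w.map Fin.val := by
      rw [List.filter_eq_self]
      intro a ha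
      obtain ⟨b, _, rfl⟩ := List.mem_map.1 ha
      simpa using b.isLt
    simp only [Machine.init, startS, sym, this, zero_add, one_mul, Nat.cast_nonneg, if_true,
      Int.toNat_natCast]
    exact (List.getD_map w (0 : Fin (M.g + 1)) Fin.val).symm
  · simp only [Machine.init, startS, sym]
    rw [if_neg (by omega)]
    simp

theorem valid_start (M : Machine) (w : List (Fin (M.g + 1))) :
    Valid M.rm (startS M.rm (w.map Fin.val)) := by
  refine ⟨?_, ?_, by simp [startS]⟩
  · have := M.start.isLt
    simp only [startS, Machine.rm]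
    omega
  · intro a ha
    obtain ⟨b, _, rfl⟩ := List.mem_map.1 ha
    exact b.isLt.trans (nG_lt_nK M.rm)

theorem valid_iter (M : Machine) (w : List (Fin (M.g + 1))) (n : ℕ) :
    Valid M.rm ((micro M.rm)^[n] (startS M.rm (w.map Fin.val))) := by
  induction n with
  | zero => exact valid_start M w
  | succ n ih => rw [Function.iterate_succ']; exact ih.micro (wf_rm M)

theorem halts_iff_micro (M : Machine) (w : List (Fin (M.g + 1))) :
    M.Halts w ↔ ∃ n, M.rm.2.1.getD
      (((micro M.rm)^[n] (startS M.rm (w.map Fin.val))).1 / 4) false = true := by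
  rw [halts_iff]
  constructor
  · rintro ⟨k, hk⟩
    have key : ∀ k, ∃ n, Rel M (M.stepN^[k] (M.init w))
        ((micro M.rm)^[n] (startS M.rm (w.map Fin.val))) := by
      intro k
      induction k with
      | zero => exact ⟨0, rel_start M w⟩
      | succ k ih =>
        obtain ⟨n, hn⟩ := ih
        obtain ⟨n', hn'⟩ := hn.progress
        refine ⟨n' + n, ?_⟩
        rw [Function.iterate_succ', Function.iterate_add_apply]
        exact hn'
    obtain ⟨n, hn⟩ := key k
    exact ⟨n, by rw [hn.1, hlt_rm]; exact hk⟩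
  · rintro ⟨n, hn⟩
    have key : ∀ n, ∃ k, Rel M (M.stepN^[k] (M.init w))
        ((micro M.rm)^[n] (startS M.rm (w.map Fin.val))) := by
      intro n
      induction n with
      | zero => exact ⟨0, rel_start M w⟩
      | succ n ih =>
        obtain ⟨k, hk⟩ := ih
        rw [Function.iterate_succ']
        rcases hk.step with h | h
        · exact ⟨k, h⟩
        · exact ⟨k + 1, by rw [Function.iterate_succ']; exact h⟩
    obtain ⟨k, hk⟩ := key n
    exact ⟨k, by rw [hk.1, hlt_rm] at hn; exact hn⟩

end Vale.Agent.P113
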