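import Vale.Agent.P113.Effective
import Vale.Agent.P113.Micro

/-!
The shears implementing the two-stack machine.
-/

namespace Vale.Agent.P113

open Set Eff

/-- put two atoms in the two coordinates other than `c` -/
def place (c : Fin 3) (A B : Atom) : Atom × Atom × Atom :=
  if c = 0 then ((0, 0, 0), A, B) else if c = 1 then (B, (0, 0, 0), A) else (A, B, (0, 0, 0))

/-- a shear amplitude that is affine on each cell of a grid -/
def grid (c : Fin 3) (N1 N2 : ℕ) (co : ℕ → ℕ → ℚ × ℚ × ℚ) : List Term :=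
  (List.range ((N1 + 1) / 2)).flatMap fun k1 => (List.range ((N2 + 1) / 2)).flatMap fun k2 =>
    [((co k1 k2).1, place c (N1, k1, 0) (N2, k2, 0)),
      ((co k1 k2).2.1, place c (N1, k1, 1) (N2, k2, 0)),
      ((co k1 k2).2.2, place c (N1, k1, 0) (N2, k2, 1))]

/-- `a` lies in cell `k` of the grid of size `N` -/
def Cell (N : ℕ) (a : ℝ) (k : ℕ) : Prop := 2 * k + 1 ≤ N ∧ (k : ℝ) ≤ N * a ∧ N * a ≤ k + 1 / 2

theorem Cell.mem {N k : ℕ} {a : ℝ} (h : Cell N a k) : 0 ≤ a ∧ a ≤ 1 / 2 := by
  obtain ⟨h1, h2, h3⟩ := h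
  have h4 : (2 * k + 1 : ℝ) ≤ N := by exact_mod_cast h1
  have h5 : (0 : ℝ) ≤ k := Nat.cast_nonneg k
  constructor <;> nlinarith

theorem cell_one {a : ℝ} (h0 : 0 ≤ a) (h1 : a ≤ 1 / 2) : Cell 1 a 0 :=
  ⟨le_rfl, by simpa using h0, by simpa using h1⟩

theorem Cell.atom_eq {N k0 : ℕ} {a : ℝ} (h : Cell N a k0) {k : ℕ} (hk : k < (N + 1) / 2)
    (e : ℕ) : atom (N, k, e) a = if k = k0 then (if e = 0 then 1 else a) else 0 := by
  have h0 := h.mem
  unfold atom
  rw [if_pos (by dsimp only; omega)]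
  have : ⌊a + 1 / 4⌋ = 0 := Int.floor_eq_iff.2 ⟨by push_cast; linarith, by push_cast; linarith⟩
  rw [this]
  unfold atom0
  simp only [Int.cast_zero, sub_zero]
  obtain ⟨_, h2, h3⟩ := h
  rcases lt_trichotomy k k0 with h4 | h4 | h4
  · have : (k : ℝ) + 1 ≤ k0 := by exact_mod_cast h4
    rw [beta_of_ge (by linarith), if_neg h4.ne, zero_mul]
  · rw [beta_of_mem (by rw [h4]; linarith) (by rw [h4]; linarith), if_pos h4, one_mul]
  · have : (k0 : ℝ) + 1 ≤ k := by exact_mod_cast h4
    rw [beta_of_le (by linarith), if_neg h4.ne', zero_mul]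

theorem sum_map_flatMap {α β : Type} (L : List α) (F : α → List β) (g : β → ℝ) :
    ((L.flatMap F).map g).sum = (L.map fun a => ((F a).map g).sum).sum := by
  induction L with
  | nil => rfl
  | cons a L ih => simp [List.flatMap_cons, ih]

theorem sum_range_ite {n k0 : ℕ} (h : k0 < n) (F : ℕ → ℝ) (v : ℝ)
    (hF : ∀ k, k < n → F k = if k = k0 then v else 0) : ((List.range n).map F).sum = v := by
  have : ((List.range n).map F).sum = ∑ k ∈ Finset.range n, F k := rfl
  rw [this, Finset.sum_congr rfl fun k hk => hF k (Finset.mem_range.1 hk), Finset.sum_ite_eq',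
    if_pos (Finset.mem_range.2 h)]

theorem uf_place (c : Fin 3) (A B : Atom) (x : Fin 3 → ℝ) :
    uf c 0 (place c A B).1 (x 0) * uf c 1 (place c A B).2.1 (x 1) *
      uf c 2 (place c A B).2.2 (x 2) = atom A (x (c + 1)) * atom B (x (c + 2)) := by
  fin_cases c <;> simp [uf, place, mul_comm]

theorem gS_grid (c : Fin 3) {N1 N2 k1 k2 : ℕ} (co : ℕ → ℕ → ℚ × ℚ × ℚ) {x : Fin 3 → ℝ}
    (h1 : Cell N1 (x (c + 1)) k1) (h2 : Cell N2 (x (c + 2)) k2) :
    gS c (grid c N1 N2 co) x =
      (co k1 k2).1 + (co k1 k2).2.1 * x (c + 1) + (co k1 k2).2.2 * x (c + 2) := by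
  unfold gS grid
  rw [sum_map_flatMap]
  refine sum_range_ite (k0 := k1) (by have := h1.1; omega) _ _ fun k hk => ?_
  rw [sum_map_flatMap]
  refine sum_range_ite (k0 := k2) (by have := h2.1; omega) _ _ fun l hl => ?_
  simp only [List.map_cons, List.map_nil, List.sum_cons, List.sum_nil, uf_place,
    h1.atom_eq hk, h2.atom_eq hl]
  by_cases e1 : k = k1 <;> by_cases e2 : l = k2 <;> simp [e1, e2]
  ring

/-- the number coding a stack -/
def rho (B : ℕ) (l : List ℕ) : ℚ := l.foldr (fun (s : ℕ) (r : ℚ) => ((s : ℚ) + r) / B) 0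

/-- the same, as a real number -/
noncomputable def rr (r : Rm) (l : List ℕ) : ℝ := (rho (nB r) l : ℝ)

theorem nB_pos (r : Rm) : (0 : ℝ) < nB r := by unfold nB; positivity

theorem rr_nil (r : Rm) : rr r [] = 0 := by simp [rr, rho]

theorem rr_cons (r : Rm) (s : ℕ) (l : List ℕ) : rr r (s :: l) = (s + rr r l) / nB r := by
  simp [rr, rho]

theorem rr_head (r : Rm) (l : List ℕ) : rr r l = (l.headD 0 + rr r l.tail) / nB r := by
  cases l with
  | nil => simp [rr_nil]
  | cons s l => exact rr_cons r s l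

/-- all digits are small -/
def Dig (r : Rm) (l : List ℕ) : Prop := ∀ s ∈ l, s ≤ 2 * nK r

theorem Dig.tail {r : Rm} {l : List ℕ} (h : Dig r l) : Dig r l.tail :=
  fun s hs => h s (List.mem_of_mem_tail hs)

theorem Dig.head {r : Rm} {l : List ℕ} (h : Dig r l) : l.headD 0 ≤ 2 * nK r := by
  cases l with
  | nil => simp
  | cons s l => exact h s List.mem_cons_self

theorem Cell.push {r : Rm} {N k : ℕ} {a : ℝ} (h : Cell N a k) {s : ℕ} (hs : s ≤ 2 * nK r) :
    Cell (N * nB r) ((s + a) / nB r) (s * N + k) := by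
  obtain ⟨h1, h2, h3⟩ := h
  have hB := nB_pos r
  have e : ((N * nB r : ℕ) : ℝ) * ((s + a) / nB r) = s * N + N * a := by
    push_cast; field_simp
  refine ⟨?_, ?_, ?_⟩
  · have : (2 * s + 1) * N ≤ nB r * N := Nat.mul_le_mul_right _ (by unfold nB; omega)
    nlinarith
  · rw [e]; push_cast; linarith
  · rw [e]; push_cast; linarith

theorem Dig.cell0 {r : Rm} {l : List ℕ} (h : Dig r l) : Cell 1 (rr r l) 0 := by
  induction l with
  | nil => rw [rr_nil]; exact cell_one le_rfl (by norm_num)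
  | cons s l ih =>
    have := ((ih h.tail).push (h s List.mem_cons_self)).mem
    rw [rr_cons]
    exact cell_one this.1 this.2

theorem Dig.cell2 {r : Rm} {l : List ℕ} (h : Dig r l) :
    Cell (nB r * nB r) (rr r l) (l.headD 0 * nB r + l.tail.headD 0) := by
  have := (h.tail.tail.cell0.push h.tail.head).push h.head
  rw [← rr_head, ← rr_head] at this
  simpa using this

theorem Dig.cell3 {r : Rm} {l : List ℕ} (h : Dig r l) :
    Cell (nB r * nB r * nB r) (rr r l)
      (l.headD 0 * (nB r * nB r) + (l.tail.headD 0 * nB r + l.tail.tail.headD 0)) := by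
  have := h.tail.cell2.push h.head
  rwa [← rr_head] at this

theorem dig_le {r : Rm} {μ : ℕ} (h : μ < 4 * (r.1.2.1 + 1)) : dig r μ ≤ 2 * nK r := by
  have := mode_le_nK r
  unfold dig
  split_ifs <;> omega

theorem dig_mod {r : Rm} {μ : ℕ} (h : μ < 4 * (r.1.2.1 + 1)) : dig r μ % (nK r + 1) = μ := by
  have := mode_le_nK r
  unfold dig
  split_ifs
  · rw [Nat.add_mod_right, Nat.mod_eq_of_lt (by omega)]
  · rw [add_zero, Nat.mod_eq_of_lt (by omega)]

theorem Valid.dig1 {r : Rm} {S : MC} (h : Valid r S) : Dig r (dig r S.1 :: S.2.1) := by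
  intro s hs
  rcases List.mem_cons.1 hs with rfl | hs
  · exact dig_le h.1
  · have := h.2.1 s hs; omega

theorem Valid.dig2 {r : Rm} {S : MC} (h : Valid r S) : Dig r S.2.2 := by
  intro s hs
  have := h.2.2 s hs; omega

/-- mode read from the two top digits -/
def cM (r : Rm) (i : ℕ) : ℕ := i / nB r % (nK r + 1)

/-- value of the word pushed on the first register -/
def pv (r : Rm) (μ s : ℕ) : ℕ :=
  if nxt r μ s % 2 = 1 then dig r (nxt r μ s) * (nB r * nB r) + (recS r μ s * nB r + outS r μ s)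
  else dig r (nxt r μ s)

/-- its scale -/
def pd (r : Rm) (μ s : ℕ) : ℕ := if nxt r μ s % 2 = 1 then nB r * nB r * nB r else nB r

/-- value of the word pushed on the second register -/
def qv (r : Rm) (μ s : ℕ) : ℕ := if nxt r μ s % 2 = 1 then 0 else recS r μ s * nB r + outS r μ s

/-- its scale -/
def qd (r : Rm) (μ s : ℕ) : ℕ := if nxt r μ s % 2 = 1 then 1 else nB r * nB r

/-- the two top digits before the step, from the record and the symbol -/
def back (r : Rm) (rc o : ℕ) : ℕ :=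
  dig r ((rc - nG r) / (nG r + 1)) * nB r +
    (if (rc - nG r) % (nG r + 1) < nG r then (rc - nG r) % (nG r + 1) else o)

/-- coefficients of the second shear -/
def co2 (r : Rm) (i : ℕ) : ℚ × ℚ × ℚ :=
  ((pv r (cM r i) (i % nB r) : ℚ) / pd r (cM r i) (i % nB r),
    1 / (pd r (cM r i) (i % nB r) : ℚ), -1)

/-- coefficients of the third shear -/
def co3 (r : Rm) (i : ℕ) : ℚ × ℚ × ℚ :=
  (((qv r (cM r i) (i % nB r) : ℚ) - i) / qd r (cM r i) (i % nB r) + pv r (cM r i) (i % nB r),
    ((nB r * nB r : ℕ) : ℚ) / qd r (cM r i) (i % nB r), -(pd r (cM r i) (i % nB r) : ℚ))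

/-- coefficients of the fourth shear -/
def co4 (r : Rm) (k1 k2 : ℕ) : ℚ × ℚ × ℚ :=
  if k1 / (nB r * nB r) % (nK r + 1) % 2 = 1 then
    (-1 / 4 - (back r (k1 % (nB r * nB r) / nB r) (k1 % (nB r * nB r) % nB r) : ℚ) /
      ((nB r * nB r : ℕ) : ℚ), 0, -1 / ((nB r * nB r : ℕ) : ℚ))
  else
    (-1 / 4 - ((back r (k2 / nB r) (k2 % nB r) : ℚ) - k2) / ((nB r * nB r : ℕ) : ℚ), 0, -1)

/-- direction of the shear number `m` -/
def csM (m : ℕ) : Fin 3 :=
  if m = 0 then 0 else if m % 4 = 3 then 0 else if m % 4 = 0 then 1 else 2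

/-- the periodic part of the program -/
def perL (r : Rm) (j : ℕ) : List Term :=
  if j = 2 then grid 2 1 1 fun _ _ => (1 / 4, 1, 0)
  else if j = 3 then grid 0 1 (nB r * nB r) fun _ k => co2 r k
  else if j = 0 then grid 1 (nB r * nB r) 1 fun k _ => co3 r k
  else grid 2 (nB r * nB r * nB r) (nB r * nB r) (co4 r)

/-- amplitude of the shear number `m` -/
def lsM (r : Rm) (w : List ℕ) (m : ℕ) : List Term :=
  if m = 0 then grid 0 1 1 fun _ _ => (rho (nB r) (dig r (4 * r.1.2.2 + 2) :: w), 0, 0)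
  else if m = 1 then grid 2 1 1 fun _ _ => (-1 / 4, 0, 0)
  else perL r (m % 4)

theorem back_eq {r : Rm} (μ s : ℕ) :
    back r (recS r μ s) (outS r μ s) = dig r μ * nB r + s := by
  have h1 : min s (nG r) < nG r + 1 := Nat.lt_succ_of_le (min_le_right _ _)
  have e0 : recS r μ s - nG r = min s (nG r) + μ * (nG r + 1) := by unfold recS; omega
  have e1 : (recS r μ s - nG r) / (nG r + 1) = μ := by
    rw [e0, Nat.add_mul_div_right _ _ (Nat.succ_pos _), Nat.div_eq_of_lt h1, zero_add]
  have e2 : (recS r μ s - nG r) % (nG r + 1) = min s (nG r) := by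
    rw [e0, Nat.add_mul_mod_self_right, Nat.mod_eq_of_lt h1]
  unfold back
  rw [e1, e2]
  congr 1
  split_ifs with h
  · omega
  · unfold outS
    rw [if_neg (by omega)]

theorem two_digits {B a b : ℕ} (h : b < B) : (a * B + b) / B = a ∧ (a * B + b) % B = b := by
  constructor
  · rw [add_comm, Nat.add_mul_div_right _ _ (by omega), Nat.div_eq_of_lt h, zero_add]
  · rw [add_comm, Nat.add_mul_mod_self_right, Nat.mod_eq_of_lt h]

/-- first register -/
noncomputable def rX (r : Rm) (S : MC) : ℝ := rr r (dig r S.1 :: S.2.1)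

/-- second register -/
noncomputable def rY (r : Rm) (S : MC) : ℝ := rr r S.2.2

theorem step_facts {r : Rm} (S : MC) :
    rX r (micro r S) = (pv r S.1 (S.2.1.headD 0) + rY r S) / pd r S.1 (S.2.1.headD 0) ∧
    rY r (micro r S) = (qv r S.1 (S.2.1.headD 0) + rr r S.2.1.tail) / qd r S.1 (S.2.1.headD 0) ∧
    rX r S = ((dig r S.1 * nB r + S.2.1.headD 0 : ℕ) + rr r S.2.1.tail) / (nB r * nB r) := by
  have hB := (nB_pos r).ne'
  refine ⟨?_, ?_, ?_⟩
  · unfold rX rY micro pv pd
    split_ifs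
    · simp only [rr_cons]; push_cast; field_simp; ring
    · simp only [rr_cons]
  · unfold rY micro qv qd
    split_ifs
    · simp
    · simp only [rr_cons]; push_cast; field_simp; ring
  · unfold rX
    rw [rr_cons, rr_head r S.2.1]; push_cast; field_simp; ring

theorem pd_pos (r : Rm) (μ s : ℕ) : (0 : ℝ) < pd r μ s := by
  have := nB_pos r
  unfold pd; split_ifs
  · push_cast; positivity
  · exact this

theorem qd_pos (r : Rm) (μ s : ℕ) : (0 : ℝ) < qd r μ s := by
  have := nB_pos r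
  unfold qd; split_ifs
  · simp
  · push_cast; positivity

theorem shear1 {r : Rm} {S : MC} (h : Valid r S) (z : ℝ) :
    gS 2 (perL r 2) ![rX r S, rY r S, z] = 1 / 4 + rX r S := by
  unfold perL
  rw [if_pos rfl, gS_grid 2 _ (k1 := 0) (k2 := 0) h.dig1.cell0 h.dig2.cell0]
  simp

theorem shear2 {r : Rm} {S : MC} (h : Valid r S) (x : ℝ) :
    gS 0 (perL r 3) ![x, rY r S, rX r S] = rX r (micro r S) - rX r S := by
  unfold perL
  rw [if_neg (by norm_num), if_pos rfl,
    gS_grid 0 _ (k1 := 0) (x := ![x, rY r S, rX r S]) h.dig2.cell0 h.dig1.cell2]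
  have hs : S.2.1.headD 0 < nB r := by have := headD_lt h.2.1; unfold nB; omega
  obtain ⟨e1, e2⟩ := two_digits (a := dig r S.1) hs
  have := pd_pos r S.1 (S.2.1.headD 0)
  rw [(step_facts S).1]
  simp only [co2, cM, List.headD_cons, List.tail_cons, e1, e2, dig_mod h.1]
  simp only [Fin.isValue, Fin.reduceAdd, Matrix.cons_val]
  push_cast
  field_simp
  ring

theorem shear3 {r : Rm} (hr : WF r) {S : MC} (h : Valid r S) (y : ℝ) :
    gS 1 (perL r 0) ![rX r (micro r S), y, rX r S] = rY r (micro r S) - rY r S := by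
  unfold perL
  rw [if_neg (by norm_num), if_neg (by norm_num), if_pos rfl,
    gS_grid 1 _ (k2 := 0) (x := ![rX r (micro r S), y, rX r S]) h.dig1.cell2
      (h.micro hr).dig1.cell0]
  have hs : S.2.1.headD 0 < nB r := by have := headD_lt h.2.1; unfold nB; omega
  obtain ⟨e1, e2⟩ := two_digits (a := dig r S.1) hs
  have h1 := pd_pos r S.1 (S.2.1.headD 0)
  have h2 := qd_pos r S.1 (S.2.1.headD 0)
  have h3 := nB_pos r
  obtain ⟨f1, f2, f3⟩ := step_facts (r := r) S
  simp only [co3, cM, List.headD_cons, List.tail_cons, e1, e2, dig_mod h.1]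
  simp only [Fin.isValue, Fin.reduceAdd, Matrix.cons_val]
  rw [f1, f2, f3]
  push_cast
  field_simp
  ring

theorem shear4 {r : Rm} (hr : WF r) {S : MC} (h : Valid r S) (z : ℝ) :
    gS 2 (perL r 1) ![rX r (micro r S), rY r (micro r S), z] = -1 / 4 - rX r S := by
  unfold perL
  rw [if_neg (by norm_num), if_neg (by norm_num), if_neg (by norm_num),
    gS_grid 2 _ (x := ![rX r (micro r S), rY r (micro r S), z]) (h.micro hr).dig1.cell3
      (h.micro hr).dig2.cell2]
  have hB := nB_pos r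
  have hn := nxt_lt hr h.1 (S.2.1.headD 0)
  have ho : outS r S.1 (S.2.1.headD 0) < nB r := by
    have := outS_lt hr h.1 (headD_lt h.2.1); unfold nB; omega
  have hc : recS r S.1 (S.2.1.headD 0) < nB r := by
    have := recS_lt h.1 (S.2.1.headD 0); unfold nB; omega
  have hlt : ∀ a b, a < nB r → b < nB r → a * nB r + b < nB r * nB r := by
    intro a b ha hb
    have : (a + 1) * nB r ≤ nB r * nB r := Nat.mul_le_mul_right _ ha
    nlinarith
  obtain ⟨_, f2, f3⟩ := step_facts (r := r) S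
  have v := h.micro hr
  have hv1 : (micro r S).2.1.headD 0 < nB r := by have := headD_lt v.2.1; unfold nB; omega
  have hv2 : (micro r S).2.1.tail.headD 0 < nB r := by
    have := headD_lt (r := r) (l := (micro r S).2.1.tail)
      fun s hs => v.2.1 s (List.mem_of_mem_tail hs)
    unfold nB; omega
  obtain ⟨e1, e2⟩ := two_digits (a := dig r (micro r S).1) (hlt _ _ hv1 hv2)
  obtain ⟨e3, e4⟩ := two_digits (a := recS r S.1 (S.2.1.headD 0)) ho
  simp only [co4, List.headD_cons, List.tail_cons, e1, e2, dig_mod v.1]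
  simp only [Fin.isValue, Fin.reduceAdd, Matrix.cons_val]
  rw [f2, f3]
  unfold qv qd micro
  split_ifs with h1
  · simp only [List.headD_cons, List.tail_cons, e3, e4, back_eq]
    push_cast
    field_simp
    ring
  · simp only [List.headD_cons, List.tail_cons, e3, e4, back_eq]
    push_cast
    field_simp
    ring

end Vale.Agent.P113
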