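import Vale.Agent.P113.Grid

/-!
Assembly: the flow of the compiled force detects halting.
-/

namespace Vale.Agent.P113

open Set Eff

section Prim

variable {α : Type} [Primcodable α]

@[fun_prop] theorem pr_nG {f : α → Rm} (hf : Primrec f) : Primrec fun a => nG (f a) := by
  unfold nG; fun_prop

@[fun_prop] theorem pr_nK {f : α → Rm} (hf : Primrec f) : Primrec fun a => nK (f a) := by
  unfold nK; fun_prop

@[fun_prop] theorem pr_nB {f : α → Rm} (hf : Primrec f) : Primrec fun a => nB (f a) := by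
  unfold nB; fun_prop

@[fun_prop] theorem pr_tr {f : α → Rm} {q s : α → ℕ} (hf : Primrec f) (hq : Primrec q)
    (hs : Primrec s) : Primrec fun a => tr (f a) (q a) (s a) := by
  unfold tr; fun_prop

attribute [local irreducible] tr

@[fun_prop] theorem pr_dig {f : α → Rm} {q : α → ℕ} (hf : Primrec f) (hq : Primrec q) :
    Primrec fun a => dig (f a) (q a) := by
  unfold dig; fun_prop

@[fun_prop] theorem pr_dirN {f : α → Rm} {q s : α → ℕ} (hf : Primrec f) (hq : Primrec q)
    (hs : Primrec s) : Primrec fun a => dirN (f a) (q a) (s a) := by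
  unfold dirN; fun_prop

@[fun_prop] theorem pr_nxt {f : α → Rm} {q s : α → ℕ} (hf : Primrec f) (hq : Primrec q)
    (hs : Primrec s) : Primrec fun a => nxt (f a) (q a) (s a) := by
  unfold nxt; fun_prop

@[fun_prop] theorem pr_outS {f : α → Rm} {q s : α → ℕ} (hf : Primrec f) (hq : Primrec q)
    (hs : Primrec s) : Primrec fun a => outS (f a) (q a) (s a) := by
  unfold outS; fun_prop

@[fun_prop] theorem pr_recS {f : α → Rm} {q s : α → ℕ} (hf : Primrec f) (hq : Primrec q)
    (hs : Primrec s) : Primrec fun a => recS (f a) (q a) (s a) := by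
  unfold recS; fun_prop

@[fun_prop] theorem pr_cM {f : α → Rm} {q : α → ℕ} (hf : Primrec f) (hq : Primrec q) :
    Primrec fun a => cM (f a) (q a) := by
  unfold cM; fun_prop

@[fun_prop] theorem pr_pv {f : α → Rm} {q s : α → ℕ} (hf : Primrec f) (hq : Primrec q)
    (hs : Primrec s) : Primrec fun a => pv (f a) (q a) (s a) := by
  unfold pv; fun_prop

@[fun_prop] theorem pr_pd {f : α → Rm} {q s : α → ℕ} (hf : Primrec f) (hq : Primrec q)
    (hs : Primrec s) : Primrec fun a => pd (f a) (q a) (s a) := by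
  unfold pd; fun_prop

@[fun_prop] theorem pr_qv {f : α → Rm} {q s : α → ℕ} (hf : Primrec f) (hq : Primrec q)
    (hs : Primrec s) : Primrec fun a => qv (f a) (q a) (s a) := by
  unfold qv; fun_prop

@[fun_prop] theorem pr_qd {f : α → Rm} {q s : α → ℕ} (hf : Primrec f) (hq : Primrec q)
    (hs : Primrec s) : Primrec fun a => qd (f a) (q a) (s a) := by
  unfold qd; fun_prop

@[fun_prop] theorem pr_back {f : α → Rm} {q s : α → ℕ} (hf : Primrec f) (hq : Primrec q)
    (hs : Primrec s) : Primrec fun a => back (f a) (q a) (s a) := by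
  unfold back; fun_prop

@[fun_prop] theorem pr_co2 {f : α → Rm} {q : α → ℕ} (hf : Primrec f) (hq : Primrec q) :
    Primrec fun a => co2 (f a) (q a) := by
  unfold co2; fun_prop

@[fun_prop] theorem pr_co3 {f : α → Rm} {q : α → ℕ} (hf : Primrec f) (hq : Primrec q) :
    Primrec fun a => co3 (f a) (q a) := by
  unfold co3; fun_prop

@[fun_prop] theorem pr_co4 {f : α → Rm} {q s : α → ℕ} (hf : Primrec f) (hq : Primrec q)
    (hs : Primrec s) : Primrec fun a => co4 (f a) (q a) (s a) := by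
  unfold co4; fun_prop

@[fun_prop] theorem pr_place (c : Fin 3) {A B : α → Atom} (hA : Primrec A) (hB : Primrec B) :
    Primrec fun a => place c (A a) (B a) := by
  unfold place; fun_prop

theorem pr_grid (c : Fin 3) {N1 N2 : α → ℕ} {co : α → ℕ → ℕ → ℚ × ℚ × ℚ} (h1 : Primrec N1)
    (h2 : Primrec N2) (hco : Primrec fun p : (α × ℕ) × ℕ => co p.1.1 p.1.2 p.2) :
    Primrec fun a => grid c (N1 a) (N2 a) (co a) := by
  unfold grid
  refine pr_flatMap (by fun_prop) (pr_flatMap (by fun_prop) ?_)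
  have a1 := Primrec.fst.comp hco
  have a2 := Primrec.fst.comp (Primrec.snd.comp hco)
  have a3 := Primrec.snd.comp (Primrec.snd.comp hco)
  exact pr_cons (a1.pair (by fun_prop)) (pr_cons (a2.pair (by fun_prop))
    (pr_cons (a3.pair (by fun_prop)) (Primrec.const [])))

theorem pr_rho {B : α → ℕ} {l : α → List ℕ} (hB : Primrec B) (hl : Primrec l) :
    Primrec fun a => rho (B a) (l a) := by
  unfold rho
  exact pr_foldr (h := fun a (s : ℕ) (r : ℚ) => ((s : ℚ) + r) / B a) hl (Primrec.const 0) (by fun_prop)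

theorem pr_perL {f : α → Rm} {j : α → ℕ} (hf : Primrec f) (hj : Primrec j) :
    Primrec fun a => perL (f a) (j a) := by
  unfold perL
  refine pr_ite (by fun_prop) (Primrec.const _) (pr_ite (by fun_prop) ?_
    (pr_ite (by fun_prop) ?_ ?_))
  · exact pr_grid 0 (by fun_prop) (by fun_prop) (by fun_prop)
  · exact pr_grid 1 (by fun_prop) (by fun_prop) (by fun_prop)
  · exact pr_grid 2 (by fun_prop) (by fun_prop) (by fun_prop)

theorem pr_lsM {f : α → Rm} {w : α → List ℕ} {m : α → ℕ} (hf : Primrec f) (hw : Primrec w)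
    (hm : Primrec m) : Primrec fun a => lsM (f a) (w a) (m a) := by
  unfold lsM
  refine pr_ite (by fun_prop) ?_ (pr_ite (by fun_prop) (Primrec.const _)
    (pr_perL hf (by fun_prop)))
  refine pr_grid 0 (by fun_prop) (by fun_prop) (Primrec.pair ?_ (Primrec.const _))
  exact pr_rho (by fun_prop) (by fun_prop)

theorem pr_csM : Primrec csM := by
  unfold csM; fun_prop

end Prim

theorem pos_succ (cs : ℕ → Fin 3) (Ls : ℕ → List Term) (a : Fin 3 → ℝ) (m : ℕ) :
    pos cs Ls a (m + 1) = pos cs Ls a m + Pi.single (cs m) (gS (cs m) (Ls m) (pos cs Ls a m)) :=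
  rfl

theorem add_single0 (a b c d : ℝ) : ![a, b, c] + Pi.single (0 : Fin 3) d = ![a + d, b, c] := by
  funext i; fin_cases i <;> simp

theorem add_single1 (a b c d : ℝ) : ![a, b, c] + Pi.single (1 : Fin 3) d = ![a, b + d, c] := by
  funext i; fin_cases i <;> simp

theorem add_single2 (a b c d : ℝ) : ![a, b, c] + Pi.single (2 : Fin 3) d = ![a, b, c + d] := by
  funext i; fin_cases i <;> simp

theorem lsM_per (r : Rm) (w : List ℕ) {m : ℕ} (h : 2 ≤ m) : lsM r w m = perL r (m % 4) := by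
  unfold lsM
  rw [if_neg (by omega), if_neg (by omega)]

theorem pos_one (r : Rm) (w : List ℕ) :
    pos csM (lsM r w) ![0, 0, 0] 1 = ![rX r (startS r w), 0, 0] := by
  have e1 : csM 0 = 0 := rfl
  have e2 : lsM r w 0 =
      grid 0 1 1 fun _ _ => (rho (nB r) (dig r (4 * r.1.2.2 + 2) :: w), 0, 0) := rfl
  rw [pos_succ, e1, e2]
  have e3 : pos csM (lsM r w) ![0, 0, 0] 0 = ![0, 0, 0] := rfl
  have c0 : Cell 1 0 0 := cell_one le_rfl (by norm_num)
  rw [e3, gS_grid 0 _ (k1 := 0) (k2 := 0) (x := ![0, 0, 0]) c0 c0, add_single0]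
  simp [rX, rr, startS]

section Run

variable {r : Rm} {w : List ℕ} (hr : WF r) (hv : ∀ n, Valid r ((micro r)^[n] (startS r w)))
include hv

theorem pos_two : pos csM (lsM r w) ![0, 0, 0] 2 = ![rX r (startS r w), 0, -1 / 4] := by
  have e1 : csM 1 = 2 := rfl
  have e2 : lsM r w 1 = grid 2 1 1 fun _ _ => (-1 / 4, 0, 0) := rfl
  have c0 : Cell 1 0 0 := cell_one le_rfl (by norm_num)
  rw [pos_succ, e1, e2, pos_one, gS_grid 2 _ (k1 := 0) (k2 := 0)
    (x := ![rX r (startS r w), 0, 0]) (hv 0).dig1.cell0 c0, add_single2]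
  simp

include hr

theorem pos_cycle (n : ℕ) (S : MC) (hS : S = (micro r)^[n] (startS r w))
    (h : pos csM (lsM r w) ![0, 0, 0] (4 * n + 2) = ![rX r S, rY r S, -1 / 4]) :
    pos csM (lsM r w) ![0, 0, 0] (4 * n + 3) = ![rX r S, rY r S, rX r S] ∧
    pos csM (lsM r w) ![0, 0, 0] (4 * n + 4) = ![rX r (micro r S), rY r S, rX r S] ∧
    pos csM (lsM r w) ![0, 0, 0] (4 * n + 5) = ![rX r (micro r S), rY r (micro r S), rX r S] ∧
    pos csM (lsM r w) ![0, 0, 0] (4 * n + 6) =
      ![rX r (micro r S), rY r (micro r S), -1 / 4] := by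
  have v : Valid r S := hS ▸ hv n
  have c2 : csM (4 * n + 2) = 2 := by
    unfold csM; rw [if_neg (by omega), if_neg (by omega), if_neg (by omega)]
  have c3 : csM (4 * n + 3) = 0 := by
    unfold csM; rw [if_neg (by omega), if_pos (by omega)]
  have c4 : csM (4 * n + 4) = 1 := by
    unfold csM; rw [if_neg (by omega), if_neg (by omega), if_pos (by omega)]
  have c5 : csM (4 * n + 5) = 2 := by
    unfold csM; rw [if_neg (by omega), if_neg (by omega), if_neg (by omega)]
  have l2 : lsM r w (4 * n + 2) = perL r 2 := by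
    rw [lsM_per r w (by omega)]; congr 1; omega
  have l3 : lsM r w (4 * n + 3) = perL r 3 := by
    rw [lsM_per r w (by omega)]; congr 1; omega
  have l4 : lsM r w (4 * n + 4) = perL r 0 := by
    rw [lsM_per r w (by omega)]; congr 1; omega
  have l5 : lsM r w (4 * n + 5) = perL r 1 := by
    rw [lsM_per r w (by omega)]; congr 1; omega
  have p3 : pos csM (lsM r w) ![0, 0, 0] (4 * n + 3) = ![rX r S, rY r S, rX r S] := by
    rw [pos_succ, h, c2, l2, shear1 v, add_single2]
    congr 3; ring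
  have p4 : pos csM (lsM r w) ![0, 0, 0] (4 * n + 4) = ![rX r (micro r S), rY r S, rX r S] := by
    rw [pos_succ, p3, c3, l3, shear2 v, add_single0]
    congr 1; ring
  have p5 : pos csM (lsM r w) ![0, 0, 0] (4 * n + 5) =
      ![rX r (micro r S), rY r (micro r S), rX r S] := by
    rw [pos_succ, p4, c4, l4, shear3 hr v, add_single1]
    congr 2; ring
  refine ⟨p3, p4, p5, ?_⟩
  rw [pos_succ, p5, c5, l5, shear4 hr v, add_single2]
  congr 3; ring

theorem pos_main (n : ℕ) : pos csM (lsM r w) ![0, 0, 0] (4 * n + 2) =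
    ![rX r ((micro r)^[n] (startS r w)), rY r ((micro r)^[n] (startS r w)), -1 / 4] := by
  induction n with
  | zero =>
    rw [pos_two hv]
    simp [rY, startS, rr_nil]
  | succ n ih =>
    rw [Function.iterate_succ']
    exact (pos_cycle hr hv n _ rfl ih).2.2.2

end Run

/-- the detecting open set -/
def detect : Set (Fin 3 → AddCircle (1 : ℝ)) :=
  {p | 1 / 4 < ‖p 0‖ ∧ ‖p 2 + ((1 / 4 : ℝ) : AddCircle (1 : ℝ))‖ < 1 / 8}

theorem isOpen_detect : IsOpen detect := by
  have h1 : IsOpen {p : Fin 3 → AddCircle (1 : ℝ) | 1 / 4 < ‖p 0‖} :=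
    isOpen_lt continuous_const (by fun_prop)
  have h2 : IsOpen {p : Fin 3 → AddCircle (1 : ℝ) |
      ‖p 2 + ((1 / 4 : ℝ) : AddCircle (1 : ℝ))‖ < 1 / 8} :=
    isOpen_lt (by fun_prop) continuous_const
  exact h1.inter h2

theorem norm_coe_small {x : ℝ} (h0 : 0 ≤ x) (h1 : x ≤ 1 / 2) : ‖(x : AddCircle (1 : ℝ))‖ = x := by
  have := (AddCircle.norm_coe_eq_abs_iff (p := (1 : ℝ)) (x := x) one_ne_zero).2
    (by rw [abs_of_nonneg h0, abs_one]; exact h1)
  rw [this, abs_of_nonneg h0]

theorem not_detect {x : Fin 3 → ℝ} (h0 : 0 ≤ x 2) (h1 : x 2 ≤ 1 / 2) : toTorus x ∉ detect := by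
  rintro ⟨_, h⟩
  unfold toTorus at h
  rw [← AddCircle.coe_add] at h
  by_cases h2 : x 2 ≤ 1 / 4
  · rw [norm_coe_small (by linarith) (by linarith)] at h
    linarith
  · have e : ((x 2 + 1 / 4 : ℝ) : AddCircle (1 : ℝ)) = -((3 / 4 - x 2 : ℝ) : AddCircle (1 : ℝ)) := by
      rw [← AddCircle.coe_neg, ← AddCircle.coe_add_period (p := (1 : ℝ)) (-(3 / 4 - x 2))]
      congr 1; ring
    rw [e, norm_neg, norm_coe_small (by linarith) (by linarith)] at h
    linarith

theorem rX_gt_iff {r : Rm} {S : MC} (h : Valid r S) :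
    1 / 4 < rX r S ↔ r.2.1.getD (S.1 / 4) false = true := by
  have h1 := h.dig1.tail.cell0.mem
  have hB := nB_pos r
  have h2 : S.1 + 1 ≤ nK r := le_trans h.1 (mode_le_nK r)
  have h3 : (S.1 : ℝ) + 1 ≤ nK r := by exact_mod_cast h2
  have h4 : (nB r : ℝ) = 4 * nK r + 2 := by unfold nB; push_cast; ring
  have h5 : (0 : ℝ) ≤ S.1 := Nat.cast_nonneg _
  unfold rX
  rw [rr_cons, lt_div_iff₀ hB, h4]
  rw [List.tail_cons] at h1
  unfold dig
  split_ifs with h6
  · push_cast
    exact iff_of_true (by linarith [h1.1]) h6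
  · push_cast
    exact iff_of_false (by linarith [h1.2]) h6

theorem detect_halts {r : Rm} {S : MC} (h : Valid r S) {x : Fin 3 → ℝ} (hx : x 0 = rX r S)
    (hd : toTorus x ∈ detect) : r.2.1.getD (S.1 / 4) false = true := by
  have h1 := hd.1
  unfold toTorus at h1
  rw [hx, norm_coe_small (x := rX r S) h.dig1.cell0.mem.1 h.dig1.cell0.mem.2] at h1
  exact (rX_gt_iff h).1 h1

theorem detect_iff {r : Rm} {w : List ℕ} (hr : WF r)
    (hv : ∀ n, Valid r ((micro r)^[n] (startS r w))) {X : ℝ → Fin 3 → ℝ}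
    (hX : IsTrajectory (uu csM (lsM r w)) ![0, 0, 0] X) :
    (∃ t, 0 ≤ t ∧ toTorus (X t) ∈ detect) ↔
      ∃ n, r.2.1.getD (((micro r)^[n] (startS r w)).1 / 4) false = true := by
  constructor
  · rintro ⟨t, ht, hd⟩
    obtain ⟨m, θ, _, _, hm⟩ := trajectory_form csM (lsM r w) hX ht
    rw [hm] at hd
    have hcases : m = 0 ∨ m = 1 ∨ ∃ n, m = 4 * n + 2 ∨ m = 4 * n + 3 ∨ m = 4 * n + 4 ∨
        m = 4 * n + 5 := by
      by_cases h0 : m = 0
      · exact Or.inl h0
      by_cases h1 : m = 1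
      · exact Or.inr (Or.inl h1)
      exact Or.inr (Or.inr ⟨(m - 2) / 4, by omega⟩)
    rcases hcases with rfl | rfl | ⟨n, hn⟩
    · refine absurd hd (not_detect ?_ ?_) <;> simp [pos, csM]
    · refine ⟨0, detect_halts (hv 0) ?_ hd⟩
      rw [pos_one]
      simp [csM]
    · obtain ⟨p3, p4, p5, _⟩ := pos_cycle hr hv n _ rfl (pos_main hr hv n)
      have hb := (hv n).dig1.cell0.mem
      rcases hn with rfl | rfl | rfl | rfl
      · refine ⟨n, detect_halts (hv n) ?_ hd⟩
        have c2 : csM (4 * n + 2) = 2 := by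
          unfold csM; rw [if_neg (by omega), if_neg (by omega), if_neg (by omega)]
        rw [pos_main hr hv n, c2]
        simp
      · have c3 : csM (4 * n + 3) = 0 := by
          unfold csM; rw [if_neg (by omega), if_pos (by omega)]
        rw [p3, c3, add_single0] at hd
        exact absurd hd (not_detect hb.1 hb.2)
      · have c4 : csM (4 * n + 4) = 1 := by
          unfold csM; rw [if_neg (by omega), if_neg (by omega), if_pos (by omega)]
        rw [p4, c4, add_single1] at hd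
        exact absurd hd (not_detect hb.1 hb.2)
      · refine ⟨n + 1, detect_halts (hv (n + 1)) ?_ hd⟩
        have c5 : csM (4 * n + 5) = 2 := by
          unfold csM; rw [if_neg (by omega), if_neg (by omega), if_neg (by omega)]
        rw [p5, c5, Function.iterate_succ']
        simp
  · rintro ⟨n, hn⟩
    refine ⟨((4 * n + 2 : ℕ) : ℝ), Nat.cast_nonneg _, ?_⟩
    rw [trajectory_int csM (lsM r w) hX, pos_main hr hv n]
    have hb := (hv n).dig1.cell0.mem
    constructor
    · change 1 / 4 < ‖((rX r ((micro r)^[n] (startS r w)) : ℝ) : AddCircle (1 : ℝ))‖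
      rw [norm_coe_small (x := rX r ((micro r)^[n] (startS r w))) hb.1 hb.2]
      exact (rX_gt_iff (hv n)).2 hn
    · change ‖((-1 / 4 : ℝ) : AddCircle (1 : ℝ)) + ((1 / 4 : ℝ) : AddCircle (1 : ℝ))‖ < 1 / 8
      rw [← AddCircle.coe_add]
      norm_num

theorem ff_eq_of_stage {cs cs' : ℕ → Fin 3} {Ls Ls' : ℕ → List Term} {ν t t' : ℝ}
    (h1 : cs ⌊t⌋₊ = cs' ⌊t'⌋₊) (h2 : Ls ⌊t⌋₊ = Ls' ⌊t'⌋₊) (h3 : t - ⌊t⌋₊ = t' - ⌊t'⌋₊) :
    ff cs Ls ν t = ff cs' Ls' ν t' := by
  funext x j
  have e1 := mixed_ff cs Ls ν t x j 0 0 0 0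
  have e2 := mixed_ff cs' Ls' ν t' x j 0 0 0 0
  rw [h1, h2, h3, ← e2] at e1
  exact e1

theorem ff_indep (r : Rm) (w w' : List ℕ) (ν : ℝ) {t : ℝ} (ht : 2 ≤ t) :
    ff csM (lsM r w) ν t = ff csM (lsM r w') ν t := by
  have h : 2 ≤ ⌊t⌋₊ := Nat.le_floor (by exact_mod_cast ht)
  exact ff_eq_of_stage rfl (by rw [lsM_per r w h, lsM_per r w' h]) rfl

theorem ff_periodic (r : Rm) (w : List ℕ) (ν : ℝ) {t : ℝ} (ht : 2 ≤ t) :
    ff csM (lsM r w) ν (t + 4) = ff csM (lsM r w) ν t := by
  have h : 2 ≤ ⌊t⌋₊ := Nat.le_floor (by exact_mod_cast ht)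
  have e : ⌊t + 4⌋₊ = ⌊t⌋₊ + 4 := Nat.floor_add_ofNat (by linarith) 4
  refine ff_eq_of_stage ?_ ?_ ?_
  · rw [e]
    unfold csM
    rw [if_neg (by omega), if_neg (c := ⌊t⌋₊ = 0) (by omega), Nat.add_mod_right]
  · rw [e, lsM_per r w h, lsM_per r w (by omega), Nat.add_mod_right]
  · rw [e]; push_cast; ring

end Vale.Agent.P113
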