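import Mathlib

/-!
Primitive recursive arithmetic on the rationals, with automation.
-/

namespace Vale.Agent.P113.Eff

attribute [fun_prop] Primrec PrimrecPred
attribute [fun_prop] Primrec.id Primrec.const Primrec.comp Primrec.fst Primrec.snd Primrec.pair

section Basic

variable {α β σ : Type} [Primcodable α] [Primcodable β] [Primcodable σ]

@[fun_prop] theorem pr_add {f g : α → ℕ} (hf : Primrec f) (hg : Primrec g) :
    Primrec (fun a => f a + g a) := Primrec.nat_add.comp hf hg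

@[fun_prop] theorem pr_mul {f g : α → ℕ} (hf : Primrec f) (hg : Primrec g) :
    Primrec (fun a => f a * g a) := Primrec.nat_mul.comp hf hg

@[fun_prop] theorem pr_sub {f g : α → ℕ} (hf : Primrec f) (hg : Primrec g) :
    Primrec (fun a => f a - g a) := Primrec.nat_sub.comp hf hg

@[fun_prop] theorem pr_div {f g : α → ℕ} (hf : Primrec f) (hg : Primrec g) :
    Primrec (fun a => f a / g a) := Primrec.nat_div.comp hf hg

@[fun_prop] theorem pr_mod {f g : α → ℕ} (hf : Primrec f) (hg : Primrec g) :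
    Primrec (fun a => f a % g a) := Primrec.nat_mod.comp hf hg

@[fun_prop] theorem pr_min {f g : α → ℕ} (hf : Primrec f) (hg : Primrec g) :
    Primrec (fun a => min (f a) (g a)) := Primrec.nat_min.comp hf hg

@[fun_prop] theorem pr_pow {f g : α → ℕ} (hf : Primrec f) (hg : Primrec g) :
    Primrec (fun a => f a ^ g a) := (Primrec₂.unpaired'.1 Nat.Primrec.pow).comp hf hg

@[fun_prop] theorem pr_ite {c : α → Prop} [DecidablePred c] {f g : α → σ} (hc : PrimrecPred c)
    (hf : Primrec f) (hg : Primrec g) : Primrec (fun a => if c a then f a else g a) :=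
  Primrec.ite hc hf hg

@[fun_prop] theorem pp_le {f g : α → ℕ} (hf : Primrec f) (hg : Primrec g) :
    PrimrecPred (fun a => f a ≤ g a) := Primrec.nat_le.comp hf hg

@[fun_prop] theorem pp_lt {f g : α → ℕ} (hf : Primrec f) (hg : Primrec g) :
    PrimrecPred (fun a => f a < g a) := Primrec.nat_lt.comp hf hg

@[fun_prop] theorem pp_eq {f g : α → σ} (hf : Primrec f) (hg : Primrec g) :
    PrimrecPred (fun a => f a = g a) := Primrec.eq.comp hf hg

@[fun_prop] theorem pp_and {p q : α → Prop} (hp : PrimrecPred p) (hq : PrimrecPred q) :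
    PrimrecPred (fun a => p a ∧ q a) := hp.and hq

@[fun_prop] theorem pr_cons {f : α → σ} {g : α → List σ} (hf : Primrec f) (hg : Primrec g) :
    Primrec (fun a => f a :: g a) := Primrec.list_cons.comp hf hg

@[fun_prop] theorem pr_length {f : α → List σ} (hf : Primrec f) :
    Primrec (fun a => (f a).length) := Primrec.list_length.comp hf

@[fun_prop] theorem pr_range {f : α → ℕ} (hf : Primrec f) :
    Primrec (fun a => List.range (f a)) := Primrec.list_range.comp hf

@[fun_prop] theorem pr_getD {f : α → List σ} {g : α → ℕ} (d : σ) (hf : Primrec f)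
    (hg : Primrec g) : Primrec (fun a => (f a).getD (g a) d) := (Primrec.list_getD d).comp hf hg

@[fun_prop] theorem pr_map {f : α → List β} {g : α → β → σ} (hf : Primrec f)
    (hg : Primrec fun p : α × β => g p.1 p.2) : Primrec (fun a => (f a).map (g a)) :=
  Primrec.list_map hf hg

@[fun_prop] theorem pr_flatMap {f : α → List β} {g : α → β → List σ} (hf : Primrec f)
    (hg : Primrec fun p : α × β => g p.1 p.2) : Primrec (fun a => (f a).flatMap (g a)) :=
  Primrec.list_flatMap hf hg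

@[fun_prop] theorem pr_foldr {f : α → List β} {g : α → σ} {h : α → β → σ → σ} (hf : Primrec f)
    (hg : Primrec g) (hh : Primrec fun p : α × β × σ => h p.1 p.2.1 p.2.2) :
    Primrec (fun a => (f a).foldr (h a) (g a)) :=
  Primrec.list_foldr (h := fun a p => h a p.1 p.2) hf hg hh

@[fun_prop] theorem pr_iterate {f : α → ℕ} {g : α → β} {h : α → β → β} (hf : Primrec f)
    (hg : Primrec g) (hh : Primrec fun p : α × β => h p.1 p.2) :
    Primrec (fun a => (h a)^[f a] (g a)) :=
  Primrec.nat_iterate hf hg hh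

theorem gcd_eq_findGreatest (a c : ℕ) :
    Nat.gcd (c + 1) a = Nat.findGreatest (fun d => a % d = 0 ∧ (c + 1) % d = 0) (c + 1) := by
  symm
  rw [Nat.findGreatest_eq_iff]
  refine ⟨Nat.gcd_le_left _ (Nat.succ_pos c), fun _ => ⟨?_, ?_⟩, fun n h1 _ h3 => ?_⟩
  · exact Nat.mod_eq_zero_of_dvd (Nat.gcd_dvd_right _ _)
  · exact Nat.mod_eq_zero_of_dvd (Nat.gcd_dvd_left _ _)
  · have := Nat.dvd_gcd (Nat.dvd_of_mod_eq_zero h3.2) (Nat.dvd_of_mod_eq_zero h3.1)
    have h4 := Nat.le_of_dvd (Nat.gcd_pos_of_pos_left a (Nat.succ_pos c)) this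
    exact absurd h1 (not_lt.2 h4)

theorem pr_gcd {f g : α → ℕ} (hf : Primrec f) (hg : Primrec g) :
    Primrec (fun a => Nat.gcd (g a + 1) (f a)) := by
  simp only [gcd_eq_findGreatest]
  refine Primrec.nat_findGreatest (p := fun a d => f a % d = 0 ∧ (g a + 1) % d = 0)
    (by fun_prop) ?_
  change PrimrecPred fun p : α × ℕ => f p.1 % p.2 = 0 ∧ (g p.1 + 1) % p.2 = 0
  fun_prop

end Basic

/-- canonical triple of a rational -/
def toT (q : ℚ) : ℕ × ℕ × ℕ := (q.num.toNat, (-q.num).toNat, q.den - 1)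

/-- rational named by a triple -/
def ofT (r : ℕ × ℕ × ℕ) : ℚ := ((r.1 : ℚ) - r.2.1) / (r.2.2 + 1)

theorem ofT_toT (q : ℚ) : ofT (toT q) = q := by
  unfold ofT toT
  have h1 : ((q.num.toNat : ℕ) : ℚ) - ((-q.num).toNat : ℕ) = q.num := by
    have := Int.toNat_sub_toNat_neg q.num
    exact_mod_cast this
  have h2 : ((q.den - 1 : ℕ) : ℚ) + 1 = q.den := by
    have : q.den - 1 + 1 = q.den := Nat.sub_add_cancel q.pos
    exact_mod_cast this
  simp only [h1, h2]
  exact Rat.num_div_den q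

theorem toT_ofT (r : ℕ × ℕ × ℕ) : toT (ofT r) =
    ((r.1 - r.2.1) / Nat.gcd (r.2.2 + 1) (r.1 - r.2.1 + (r.2.1 - r.1)),
      (r.2.1 - r.1) / Nat.gcd (r.2.2 + 1) (r.1 - r.2.1 + (r.2.1 - r.1)),
      (r.2.2 + 1) / Nat.gcd (r.2.2 + 1) (r.1 - r.2.1 + (r.2.1 - r.1)) - 1) := by
  obtain ⟨a, b, c⟩ := r
  have h0 : ofT (a, b, c) = mkRat ((a : ℤ) - b) (c + 1) := by
    rw [Rat.mkRat_eq_div]; unfold ofT; push_cast; rfl
  have h1 : ((a : ℤ) - b).natAbs = a - b + (b - a) := by omega
  rw [h0]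
  unfold toT
  rw [Rat.num_mkRat, Rat.den_mkRat, if_neg (Nat.succ_ne_zero c), if_neg (Nat.succ_ne_zero c), h1]
  simp only
  set g := Nat.gcd (c + 1) (a - b + (b - a)) with hg
  have hdvd : g ∣ a - b + (b - a) := Nat.gcd_dvd_right _ _
  have hpos : 0 < g := Nat.gcd_pos_of_pos_left _ (Nat.succ_pos c)
  rcases le_total b a with h | h
  · obtain ⟨k, rfl⟩ := Nat.exists_eq_add_of_le h
    have e1 : b + k - b = k := by omega
    have e2 : b - (b + k) = 0 := by omega
    have e3 : ((b + k : ℕ) : ℤ) - b = k := by push_cast; ring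
    rw [e1, e2, e3, ← Int.natCast_div, Int.toNat_natCast, Int.toNat_neg_natCast, Nat.zero_div]
  · obtain ⟨k, rfl⟩ := Nat.exists_eq_add_of_le h
    have e1 : a + k - a = k := by omega
    have e2 : a - (a + k) = 0 := by omega
    have e3 : (a : ℤ) - ((a + k : ℕ) : ℤ) = -k := by push_cast; ring
    rw [e1, e2, zero_add] at hdvd
    obtain ⟨l, hl⟩ := hdvd
    rw [e1, e2, e3]
    have e4 : (-(k : ℤ)) / (g : ℤ) = -(l : ℤ) := by
      rw [hl]; push_cast
      rw [← mul_neg, Int.mul_ediv_cancel_left _ (by exact_mod_cast hpos.ne')]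
    have e5 : k / g = l := by rw [hl, Nat.mul_div_cancel_left _ hpos]
    rw [e4, e5]
    simp

theorem pr_normT : Primrec fun r => toT (ofT r) := by
  simp only [toT_ofT]
  have hg : Primrec fun r : ℕ × ℕ × ℕ => Nat.gcd (r.2.2 + 1) (r.1 - r.2.1 + (r.2.1 - r.1)) :=
    pr_gcd (by fun_prop) (by fun_prop)
  fun_prop

/-- coding of rationals through their canonical triples -/
@[reducible] def encRat : Encodable ℚ where
  encode q := Encodable.encode (toT q)
  decode n := (Encodable.decode n : Option (ℕ × ℕ × ℕ)).map ofT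
  encodek q := by rw [Encodable.encodek, Option.map_some, ofT_toT]

scoped instance (priority := high) primcodableRat : Primcodable ℚ where
  toEncodable := encRat
  prim := by
    refine Nat.Primrec.of_eq pr_normT fun n => ?_
    change Encodable.encode (Option.map _ (Encodable.decode n)) =
      @Encodable.encode (Option ℚ) (@Option.encodable ℚ encRat)
        ((Encodable.decode n : Option (ℕ × ℕ × ℕ)).map ofT)
    cases (Encodable.decode n : Option (ℕ × ℕ × ℕ)) <;> rfl

theorem pr_toT' : Primrec toT := by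
  refine Primrec.encode_iff.1 ?_
  exact Primrec.encode (α := ℚ)

theorem pr_ofT' : Primrec ofT := by
  refine Primrec.encode_iff.1 ?_
  exact Primrec.encode_iff.2 pr_normT

theorem toT_or (q : ℚ) : (toT q).1 = 0 ∨ (toT q).2.1 = 0 := by unfold toT; simp only; omega

theorem le_iff_toT (x y : ℚ) : x ≤ y ↔ (toT (x - y)).1 = 0 := by
  unfold toT
  simp only [Int.toNat_eq_zero, Rat.num_nonpos, sub_nonpos]

attribute [irreducible] toT

variable {α : Type} [Primcodable α]

@[fun_prop] theorem pr_toT {f : α → ℚ} (hf : Primrec f) : Primrec fun a => toT (f a) :=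
  pr_toT'.comp hf

@[fun_prop] theorem pr_ofT {f : α → ℕ × ℕ × ℕ} (hf : Primrec f) : Primrec fun a => ofT (f a) :=
  pr_ofT'.comp hf

theorem pr_bin {F : ℚ → ℚ → ℚ} {G : (ℕ × ℕ × ℕ) × (ℕ × ℕ × ℕ) → ℕ × ℕ × ℕ} (hG : Primrec G)
    (h : ∀ r s, ofT (G (r, s)) = F (ofT r) (ofT s)) {f g : α → ℚ} (hf : Primrec f)
    (hg : Primrec g) : Primrec fun a => F (f a) (g a) := by
  have : Primrec fun a => ofT (G (toT (f a), toT (g a))) := by fun_prop
  refine this.of_eq fun a => ?_
  rw [h, ofT_toT, ofT_toT]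

@[fun_prop] theorem pq_add {f g : α → ℚ} (hf : Primrec f) (hg : Primrec g) :
    Primrec fun a => f a + g a := by
  refine pr_bin (F := fun x y => x + y) (G := fun p =>
    (p.1.1 * (p.2.2.2 + 1) + p.2.1 * (p.1.2.2 + 1), p.1.2.1 * (p.2.2.2 + 1) + p.2.2.1 * (p.1.2.2 + 1),
      p.1.2.2 * p.2.2.2 + p.1.2.2 + p.2.2.2)) (by fun_prop) (fun r s => ?_) hf hg
  unfold ofT
  push_cast
  have e : (r.2.2 : ℚ) * s.2.2 + r.2.2 + s.2.2 + 1 = (r.2.2 + 1) * (s.2.2 + 1) := by ring
  rw [e]
  field_simp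
  ring

@[fun_prop] theorem pq_mul {f g : α → ℚ} (hf : Primrec f) (hg : Primrec g) :
    Primrec fun a => f a * g a := by
  refine pr_bin (F := fun x y => x * y) (G := fun p =>
    (p.1.1 * p.2.1 + p.1.2.1 * p.2.2.1, p.1.1 * p.2.2.1 + p.1.2.1 * p.2.1,
      p.1.2.2 * p.2.2.2 + p.1.2.2 + p.2.2.2)) (by fun_prop) (fun r s => ?_) hf hg
  unfold ofT
  push_cast
  have e : (r.2.2 : ℚ) * s.2.2 + r.2.2 + s.2.2 + 1 = (r.2.2 + 1) * (s.2.2 + 1) := by ring
  rw [e]
  field_simp
  ring

@[fun_prop] theorem pq_neg {f : α → ℚ} (hf : Primrec f) : Primrec fun a => -f a := by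
  have : Primrec fun a => (-1 : ℚ) * f a := by fun_prop
  simpa using this

@[fun_prop] theorem pq_sub {f g : α → ℚ} (hf : Primrec f) (hg : Primrec g) :
    Primrec fun a => f a - g a := by
  have : Primrec fun a => f a + -g a := by fun_prop
  simpa [sub_eq_add_neg] using this

@[fun_prop] theorem pq_natCast {f : α → ℕ} (hf : Primrec f) : Primrec fun a => (f a : ℚ) := by
  have : Primrec fun a => ofT (f a, 0, 0) := by fun_prop
  simpa [ofT] using this

@[fun_prop] theorem pq_le {f g : α → ℚ} (hf : Primrec f) (hg : Primrec g) :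
    PrimrecPred fun a => f a ≤ g a := by
  simp only [le_iff_toT]
  fun_prop

@[fun_prop] theorem pq_abs {f : α → ℚ} (hf : Primrec f) : Primrec fun a => |f a| := by
  have : Primrec fun a => if 0 ≤ f a then f a else -f a := by fun_prop
  refine this.of_eq fun a => ?_
  split_ifs with h
  · rw [abs_of_nonneg h]
  · rw [abs_of_neg (not_le.1 h)]

@[fun_prop] theorem pq_inv {f : α → ℚ} (hf : Primrec f) : Primrec fun a => (f a)⁻¹ := by
  have : Primrec fun a =>
      (if (toT (f a)).1 = 0 then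
        (if (toT (f a)).2.1 = 0 then 0 else ofT (0, (toT (f a)).2.2 + 1, (toT (f a)).2.1 - 1))
      else ofT ((toT (f a)).2.2 + 1, 0, (toT (f a)).1 - 1)) := by fun_prop
  refine this.of_eq fun a => ?_
  generalize f a = q
  have h0 := ofT_toT q
  have h1 := toT_or q
  generalize toT q = r at h0 h1
  obtain ⟨a, b, c⟩ := r
  subst h0
  dsimp only at h1 ⊢
  split_ifs with h2 h3
  · simp [ofT, h2, h3]
  · obtain ⟨k, rfl⟩ := Nat.exists_eq_succ_of_ne_zero h3
    simp only [ofT, h2, Nat.succ_sub_one]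
    push_cast
    rw [inv_div, zero_sub, zero_sub, div_neg, neg_div]
  · obtain ⟨k, rfl⟩ := Nat.exists_eq_succ_of_ne_zero h2
    have h3 : b = 0 := by omega
    simp only [ofT, h3, Nat.succ_sub_one]
    push_cast
    field_simp
    ring

@[fun_prop] theorem pq_div {f g : α → ℚ} (hf : Primrec f) (hg : Primrec g) :
    Primrec fun a => f a / g a := by
  have : Primrec fun a => f a * (g a)⁻¹ := by fun_prop
  simpa [div_eq_mul_inv] using this

@[fun_prop] theorem pq_pow {f : α → ℚ} {g : α → ℕ} (hf : Primrec f) (hg : Primrec g) :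
    Primrec fun a => f a ^ g a := by
  have : Primrec fun a => (fun y => y * f a)^[g a] 1 := by fun_prop
  refine this.of_eq fun a => ?_
  rw [mul_right_iterate]
  exact one_mul _

@[fun_prop] theorem pq_floorNat {f : α → ℚ} (hf : Primrec f) : Primrec fun a => ⌊f a⌋₊ := by
  have : Primrec fun a => (toT (f a)).1 / ((toT (f a)).2.2 + 1) := by fun_prop
  refine this.of_eq fun a => ?_
  generalize f a = q
  have h0 := ofT_toT q
  have h1 := toT_or q
  generalize toT q = r at h0 h1
  obtain ⟨a, b, c⟩ := r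
  subst h0
  rcases h1 with h1 | h1
  · simp only at h1
    subst h1
    rw [Nat.floor_of_nonpos]
    · simp
    · unfold ofT
      refine div_nonpos_of_nonpos_of_nonneg (by simp) (by positivity)
  · simp only at h1
    subst h1
    have : ofT (a, 0, c) = (a : ℚ) / ((c + 1 : ℕ) : ℚ) := by simp [ofT]
    rw [this, Nat.floor_div_eq_div]

theorem intFloor_eq (q : ℚ) :
    ((⌊q⌋ : ℤ) : ℚ) = (⌊q + (⌊-q⌋₊ + 1 : ℕ)⌋₊ : ℚ) - (⌊-q⌋₊ + 1 : ℕ) := by
  have h1 : 0 ≤ q + (⌊-q⌋₊ + 1 : ℕ) := by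
    have := Nat.lt_floor_add_one (-q)
    push_cast
    linarith
  have h2 : ((⌊q + (⌊-q⌋₊ + 1 : ℕ)⌋₊ : ℕ) : ℤ) = ⌊q⌋ + (⌊-q⌋₊ + 1 : ℕ) := by
    rw [Int.natCast_floor_eq_floor h1, Int.floor_add_natCast]
  have h3 : ((⌊q + (⌊-q⌋₊ + 1 : ℕ)⌋₊ : ℕ) : ℚ) = ((⌊q⌋ : ℤ) : ℚ) + (⌊-q⌋₊ + 1 : ℕ) := by
    exact_mod_cast h2
  rw [h3]
  ring

theorem pq_intFloor {f : α → ℚ} (hf : Primrec f) : Primrec fun a => ((⌊f a⌋ : ℤ) : ℚ) := by
  simp only [intFloor_eq]
  fun_prop

@[fun_prop] theorem pq_sum {f : α → List ℚ} (hf : Primrec f) : Primrec fun a => (f a).sum := by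
  have : Primrec fun a => (f a).foldr (fun x y => x + y) 0 := by fun_prop
  exact this

end Vale.Agent.P113.Eff
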