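import Vale.Agent.P113.Defs

/-!
Finite sums of products of functions of one variable, and their mixed derivatives.
-/

namespace Vale.Agent.P113

open Set Filter Topology

/-- smooth function of one variable -/
abbrev Sm (h : ℝ → ℝ) : Prop := ContDiff ℝ (⊤ : ℕ∞) h

/-- smooth function of `(t, x)` -/
abbrev Sm2 (g : ℝ → (Fin 3 → ℝ) → ℝ) : Prop :=
  ContDiff ℝ (⊤ : ℕ∞) (fun z : ℝ × (Fin 3 → ℝ) => g z.1 z.2)

theorem Sm.deriv' {h : ℝ → ℝ} (hh : Sm h) : Sm (deriv h) := by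
  have := ContDiff.iterate_deriv 1 hh
  simpa using this

theorem Sm.iter {h : ℝ → ℝ} (hh : Sm h) (n : ℕ) : Sm (deriv^[n] h) :=
  ContDiff.iterate_deriv n hh

theorem Sm.hasDerivAt {h : ℝ → ℝ} (hh : Sm h) (x : ℝ) : HasDerivAt h (deriv h x) x :=
  (hh.differentiable (by simp) x).hasDerivAt

/-- four functions of one variable -/
abbrev Quad := (ℝ → ℝ) × (ℝ → ℝ) × (ℝ → ℝ) × (ℝ → ℝ)

/-- sum of products -/
def sep (L : List Quad) : ℝ → (Fin 3 → ℝ) → ℝ := fun t x =>
  (L.map fun e => e.1 t * (e.2.1 (x 0) * e.2.2.1 (x 1) * e.2.2.2 (x 2))).sum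

/-- all entries smooth -/
def SmL (L : List Quad) : Prop := ∀ e ∈ L, Sm e.1 ∧ Sm e.2.1 ∧ Sm e.2.2.1 ∧ Sm e.2.2.2

theorem sep_nil (t : ℝ) (x : Fin 3 → ℝ) : sep [] t x = 0 := rfl

theorem sep_cons (e : Quad) (L : List Quad) (t : ℝ) (x : Fin 3 → ℝ) :
    sep (e :: L) t x = e.1 t * (e.2.1 (x 0) * e.2.2.1 (x 1) * e.2.2.2 (x 2)) + sep L t x := by
  simp [sep]

theorem sep_append (L L' : List Quad) (t : ℝ) (x : Fin 3 → ℝ) :
    sep (L ++ L') t x = sep L t x + sep L' t x := by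
  simp [sep]

theorem SmL.tail {e : Quad} {L : List Quad} (h : SmL (e :: L)) : SmL L :=
  fun e' he' => h e' (List.mem_cons_of_mem _ he')

theorem SmL.append {L L' : List Quad} (h : SmL L) (h' : SmL L') : SmL (L ++ L') := by
  intro e he
  rcases List.mem_append.1 he with h1 | h1
  · exact h e h1
  · exact h' e h1

theorem SmL.sm2 {L : List Quad} (h : SmL L) : Sm2 (sep L) := by
  induction L with
  | nil => exact contDiff_const
  | cons e L ih =>
    obtain ⟨h1, h2, h3, h4⟩ := h e List.mem_cons_self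
    simp only [Sm2, sep_cons]
    refine ContDiff.add (ContDiff.mul (h1.comp contDiff_fst) (ContDiff.mul (ContDiff.mul
      (h2.comp ?_) (h3.comp ?_)) (h4.comp ?_))) (ih h.tail) <;> fun_prop

/-- derivative of the list in time -/
noncomputable def qT (e : Quad) : Quad := (deriv e.1, e.2)

/-- derivative of the list in space -/
noncomputable def qX (i : Fin 3) (e : Quad) : Quad :=
  (e.1, if i = 0 then deriv e.2.1 else e.2.1, if i = 1 then deriv e.2.2.1 else e.2.2.1,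
    if i = 2 then deriv e.2.2.2 else e.2.2.2)

theorem SmL.qT {L : List Quad} (h : SmL L) : SmL (L.map qT) := by
  intro e he
  obtain ⟨e', he', rfl⟩ := List.mem_map.1 he
  obtain ⟨h1, h2, h3, h4⟩ := h e' he'
  exact ⟨h1.deriv', h2, h3, h4⟩

theorem SmL.qX {L : List Quad} (h : SmL L) (i : Fin 3) : SmL (L.map (qX i)) := by
  intro e he
  obtain ⟨e', he', rfl⟩ := List.mem_map.1 he
  obtain ⟨h1, h2, h3, h4⟩ := h e' he'
  refine ⟨h1, ?_, ?_, ?_⟩ <;> simp only [P113.qX] <;> split_ifs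
  exacts [h2.deriv', h2, h3.deriv', h3, h4.deriv', h4]

theorem SmL.hasDerivAt_T {L : List Quad} (h : SmL L) (t : ℝ) (x : Fin 3 → ℝ) :
    HasDerivAt (fun s => sep L s x) (sep (L.map P113.qT) t x) t := by
  induction L with
  | nil => exact hasDerivAt_const _ _
  | cons e L ih =>
    obtain ⟨h1, h2, h3, h4⟩ := h e List.mem_cons_self
    simp only [List.map_cons, sep_cons]
    exact ((h1.hasDerivAt t).mul_const _).fun_add (ih h.tail)

theorem SmL.hasDerivAt_X {L : List Quad} (h : SmL L) (i : Fin 3) (t : ℝ) (x : Fin 3 → ℝ) :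
    HasDerivAt (fun s => sep L t (Function.update x i s)) (sep (L.map (P113.qX i)) t x) (x i) := by
  induction L with
  | nil => exact hasDerivAt_const _ _
  | cons e L ih =>
    obtain ⟨h1, h2, h3, h4⟩ := h e List.mem_cons_self
    simp only [List.map_cons, sep_cons]
    refine HasDerivAt.fun_add (HasDerivAt.const_mul _ ?_) (ih h.tail)
    fin_cases i
    · simpa [P113.qX] using ((h2.hasDerivAt (x 0)).mul_const _).mul_const _
    · simpa [P113.qX] using ((h3.hasDerivAt (x 1)).const_mul _).mul_const _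
    · simpa [P113.qX] using (h4.hasDerivAt (x 2)).const_mul _

theorem SmL.dT_eq {L : List Quad} (h : SmL L) : dT (sep L) = sep (L.map P113.qT) := by
  funext t x
  exact (h.hasDerivAt_T t x).deriv

theorem SmL.dX_eq {L : List Quad} (h : SmL L) (i : Fin 3) :
    dX i (sep L) = sep (L.map (P113.qX i)) := by
  funext t x
  exact (h.hasDerivAt_X i t x).deriv

theorem iter_eq {D : (ℝ → (Fin 3 → ℝ) → ℝ) → ℝ → (Fin 3 → ℝ) → ℝ} {q : Quad → Quad}
    (h1 : ∀ L, SmL L → SmL (L.map q)) (h2 : ∀ L, SmL L → D (sep L) = sep (L.map q)) (n : ℕ)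
    {L : List Quad} (h : SmL L) : SmL (L.map q^[n]) ∧ D^[n] (sep L) = sep (L.map q^[n]) := by
  induction n with
  | zero => simpa using h
  | succ n ih =>
    rw [Function.iterate_succ', Function.iterate_succ', Function.comp_apply, ih.2, h2 _ ih.1,
      ← List.map_map]
    exact ⟨h1 _ ih.1, rfl⟩

theorem qT_iter (n : ℕ) (e : Quad) : qT^[n] e = (deriv^[n] e.1, e.2) := by
  induction n with
  | zero => rfl
  | succ n ih => rw [Function.iterate_succ', Function.comp_apply, ih, Function.iterate_succ']; rfl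

theorem qX0_iter (n : ℕ) (e : Quad) : (qX 0)^[n] e = (e.1, deriv^[n] e.2.1, e.2.2) := by
  induction n with
  | zero => rfl
  | succ n ih => rw [Function.iterate_succ', Function.comp_apply, ih, Function.iterate_succ']; rfl

theorem qX1_iter (n : ℕ) (e : Quad) :
    (qX 1)^[n] e = (e.1, e.2.1, deriv^[n] e.2.2.1, e.2.2.2) := by
  induction n with
  | zero => rfl
  | succ n ih => rw [Function.iterate_succ', Function.comp_apply, ih, Function.iterate_succ']; rfl

theorem qX2_iter (n : ℕ) (e : Quad) :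
    (qX 2)^[n] e = (e.1, e.2.1, e.2.2.1, deriv^[n] e.2.2.2) := by
  induction n with
  | zero => rfl
  | succ n ih => rw [Function.iterate_succ', Function.comp_apply, ih, Function.iterate_succ']; rfl

theorem SmL.mixed_eq {L : List Quad} (h : SmL L) (a b c d : ℕ) (t : ℝ) (x : Fin 3 → ℝ) :
    mixed a b c d (sep L) t x =
      (L.map fun e => deriv^[a] e.1 t * (deriv^[b] e.2.1 (x 0) * deriv^[c] e.2.2.1 (x 1) *
        deriv^[d] e.2.2.2 (x 2))).sum := by
  unfold mixed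
  obtain ⟨s1, e1⟩ := iter_eq (fun L h => SmL.qX h 2) (fun L h => h.dX_eq 2) d h
  obtain ⟨s2, e2⟩ := iter_eq (fun L h => SmL.qX h 1) (fun L h => h.dX_eq 1) c s1
  obtain ⟨s3, e3⟩ := iter_eq (fun L h => SmL.qX h 0) (fun L h => h.dX_eq 0) b s2
  obtain ⟨_, e4⟩ := iter_eq (fun L h => SmL.qT h) (fun L h => h.dT_eq) a s3
  rw [e1, e2, e3, e4]
  simp only [sep, List.map_map]
  congr 1
  refine List.map_congr_left fun e _ => ?_
  simp only [Function.comp_apply, qT_iter, qX0_iter, qX1_iter, qX2_iter]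

/-- equality for times near `t` -/
def NearEq (t : ℝ) (g g' : ℝ → (Fin 3 → ℝ) → ℝ) : Prop := ∀ᶠ s in 𝓝 t, g s = g' s

theorem NearEq.dT {t : ℝ} {g g' : ℝ → (Fin 3 → ℝ) → ℝ} (h : NearEq t g g') :
    NearEq t (dT g) (dT g') := by
  filter_upwards [eventually_eventually_nhds.2 h] with s hs
  funext x
  refine Filter.EventuallyEq.deriv_eq ?_
  filter_upwards [hs] with r hr
  rw [hr]

theorem NearEq.dX {t : ℝ} {g g' : ℝ → (Fin 3 → ℝ) → ℝ} (h : NearEq t g g') (i : Fin 3) :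
    NearEq t (dX i g) (dX i g') := by
  filter_upwards [h] with s hs
  funext x
  simp only [P113.dX, hs]

theorem NearEq.iter {D : (ℝ → (Fin 3 → ℝ) → ℝ) → ℝ → (Fin 3 → ℝ) → ℝ} {t : ℝ}
    (hD : ∀ g g', NearEq t g g' → NearEq t (D g) (D g')) (n : ℕ)
    {g g' : ℝ → (Fin 3 → ℝ) → ℝ} (h : NearEq t g g') : NearEq t (D^[n] g) (D^[n] g') := by
  induction n with
  | zero => exact h
  | succ n ih => rw [Function.iterate_succ']; exact hD _ _ ih

theorem NearEq.mixed {t : ℝ} {g g' : ℝ → (Fin 3 → ℝ) → ℝ} (h : NearEq t g g') (a b c d : ℕ) :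
    mixed a b c d g t = mixed a b c d g' t := by
  have h1 := NearEq.iter (fun g g' h => NearEq.dX h 2) d h
  have h2 := NearEq.iter (fun g g' h => NearEq.dX h 1) c h1
  have h3 := NearEq.iter (fun g g' h => NearEq.dX h 0) b h2
  have h4 := NearEq.iter (fun g g' h => NearEq.dT h) a h3
  exact h4.self_of_nhds

/-- locally in time a smooth sum of products -/
def LocSep (g : ℝ → (Fin 3 → ℝ) → ℝ) : Prop := ∀ t, ∃ L, SmL L ∧ NearEq t g (sep L)

theorem LocSep.dT {g : ℝ → (Fin 3 → ℝ) → ℝ} (h : LocSep g) : LocSep (dT g) := by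
  intro t
  obtain ⟨L, h1, h2⟩ := h t
  exact ⟨_, h1.qT, h1.dT_eq ▸ h2.dT⟩

theorem LocSep.dX {g : ℝ → (Fin 3 → ℝ) → ℝ} (h : LocSep g) (i : Fin 3) : LocSep (dX i g) := by
  intro t
  obtain ⟨L, h1, h2⟩ := h t
  exact ⟨_, h1.qX i, h1.dX_eq i ▸ h2.dX i⟩

theorem LocSep.sm2 {g : ℝ → (Fin 3 → ℝ) → ℝ} (h : LocSep g) : Sm2 g := by
  refine contDiff_iff_contDiffAt.2 fun z => ?_
  obtain ⟨L, h1, h2⟩ := h z.1
  refine h1.sm2.contDiffAt.congr_of_eventuallyEq ?_
  have : ∀ᶠ w : ℝ × (Fin 3 → ℝ) in 𝓝 z, g w.1 = sep L w.1 :=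
    (continuous_fst.tendsto z).eventually h2
  filter_upwards [this] with w hw
  rw [hw]

theorem Sm2.contOn {g : ℝ → (Fin 3 → ℝ) → ℝ} (h : Sm2 g) (T : ℝ) : ContOn T g :=
  h.continuous.continuousOn

theorem LocSep.diff_X {g : ℝ → (Fin 3 → ℝ) → ℝ} (h : LocSep g) (i : Fin 3) (t : ℝ)
    (x : Fin 3 → ℝ) : DifferentiableAt ℝ (fun s => g t (Function.update x i s)) (x i) := by
  obtain ⟨L, h1, h2⟩ := h t
  rw [h2.self_of_nhds]
  exact (h1.hasDerivAt_X i t x).differentiableAt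

theorem LocSep.diff_T {g : ℝ → (Fin 3 → ℝ) → ℝ} (h : LocSep g) (t : ℝ)
    (x : Fin 3 → ℝ) : DifferentiableAt ℝ (fun s => g s x) t := by
  obtain ⟨L, h1, h2⟩ := h t
  refine (h1.hasDerivAt_T t x).differentiableAt.congr_of_eventuallyEq ?_
  filter_upwards [h2] with s hs
  rw [hs]

theorem LocSep.c1On {g : ℝ → (Fin 3 → ℝ) → ℝ} (h : LocSep g) (T : ℝ) : C1On T g :=
  ⟨h.sm2.contOn T, fun i => ⟨fun t _ x => h.diff_X i t x, (h.dX i).sm2.contOn T⟩⟩

theorem LocSep.dTOn_eq {g : ℝ → (Fin 3 → ℝ) → ℝ} (h : LocSep g) {T : ℝ} (hT : 0 < T) {t : ℝ}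
    (ht : t ∈ Icc 0 T) (x : Fin 3 → ℝ) : dTOn T g t x = P113.dT g t x :=
  (h.diff_T t x).derivWithin (uniqueDiffOn_Icc hT t ht)

theorem LocSep.contOn_dTOn {g : ℝ → (Fin 3 → ℝ) → ℝ} (h : LocSep g) {T : ℝ} (hT : 0 < T) :
    ContOn T (dTOn T g) :=
  (h.dT.sm2.contOn T).congr fun z hz => h.dTOn_eq hT hz.1 z.2

theorem iter_deriv_congr {f g : ℝ → ℝ} {x : ℝ} (h : f =ᶠ[𝓝 x] g) (n : ℕ) :
    deriv^[n] f =ᶠ[𝓝 x] deriv^[n] g := by
  induction n with
  | zero => exact h
  | succ n ih => rw [Function.iterate_succ']; exact ih.deriv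

theorem iter_deriv_shift (h : ℝ → ℝ) (c : ℝ) (n : ℕ) :
    deriv^[n] (fun y => h (y - c)) = fun y => deriv^[n] h (y - c) := by
  induction n with
  | zero => rfl
  | succ n ih =>
    rw [Function.iterate_succ', Function.comp_apply, ih]
    funext y
    rw [deriv_comp_sub_const (deriv^[n] h)]
    rfl

theorem iter_deriv_const_mul (h : ℝ → ℝ) (c : ℝ) (n : ℕ) :
    deriv^[n] (fun y => c * h y) = fun y => c * deriv^[n] h y := by
  induction n with
  | zero => rfl
  | succ n ih =>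
    rw [Function.iterate_succ', Function.comp_apply, ih]
    funext y
    rw [deriv_const_mul_field]
    rfl

theorem iter_deriv_const (c : ℝ) (n : ℕ) :
    deriv^[n] (fun _ : ℝ => c) = fun _ => if n = 0 then c else 0 := by
  induction n with
  | zero => rfl
  | succ n ih =>
    rw [Function.iterate_succ', Function.comp_apply, ih]
    funext y
    simp

end Vale.Agent.P113
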