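import Vale.Agent.P113.Defs

/-!
Uniqueness of classical solutions by the energy method.
-/

namespace Vale.Agent.P113

open Set MeasureTheory

theorem update_one_eq (x : Fin 3 → ℝ) (i : Fin 3) :
    Function.update x i (1 : ℝ) = Function.update x i (0 : ℝ) + Pi.single i 1 := by
  funext k
  by_cases h : k = i
  · subst h; simp
  · simp [h]

theorem update_add_single (x : Fin 3 → ℝ) (i k : Fin 3) (s : ℝ) :
    Function.update (x + Pi.single k 1) i s =
      Function.update x i (s - (Pi.single k (1 : ℝ) : Fin 3 → ℝ) i) + Pi.single k 1 := by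
  funext l
  by_cases h : l = i
  · subst h; simp
  · simp [h]

/-- The integral over the unit cube of a partial derivative of a periodic function vanishes. -/
theorem integral_partial_eq_zero (G G' : (Fin 3 → ℝ) → ℝ) (i : Fin 3) (hper : Per G)
    (hd : ∀ x, HasDerivAt (fun s => G (Function.update x i s)) (G' x) (x i))
    (hc : Continuous G') : ∫ x in Icc (0 : Fin 3 → ℝ) 1, G' x = 0 := by
  let μ : Fin 3 → Measure ℝ := fun _ => volume.restrict (Icc (0 : ℝ) 1)
  have hK : (volume : Measure (Fin 3 → ℝ)).restrict (Icc 0 1) = Measure.pi μ := by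
    rw [← Set.pi_univ_Icc, volume_pi]
    exact Measure.restrict_pi_pi (fun _ => volume) (fun _ => Icc (0 : ℝ) 1)
  have hint : Integrable G' (Measure.pi μ) := by
    rw [← hK]
    exact hc.continuousOn.integrableOn_compact isCompact_Icc
  have hmp := (measurePreserving_piFinSuccAbove μ i).symm
  rw [hK, ← hmp.integral_comp' G']
  have hint2 := (hmp.integrable_comp_emb
    (MeasurableEquiv.piFinSuccAbove (fun _ => ℝ) i).symm.measurableEmbedding).2 hint
  refine (integral_prod_symm _ hint2).trans ?_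
  refine integral_eq_zero_of_ae (Filter.Eventually.of_forall fun y => ?_)
  let x0 : Fin 3 → ℝ := Fin.insertNth i (0 : ℝ) y
  have hins : ∀ s : ℝ, (MeasurableEquiv.piFinSuccAbove (fun _ => ℝ) i).symm (s, y) =
      Function.update x0 i s := by
    intro s
    simp [MeasurableEquiv.piFinSuccAbove, x0, Fin.insertNthEquiv]
  simp only [Function.comp_apply, hins, μ, Pi.zero_apply]
  rw [integral_Icc_eq_integral_Ioc, ← intervalIntegral.integral_of_le zero_le_one]
  have h1 : ∀ s ∈ uIcc (0 : ℝ) 1, HasDerivAt (fun s => G (Function.update x0 i s))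
      (G' (Function.update x0 i s)) s := by
    intro s _
    have := hd (Function.update x0 i s)
    simpa using this
  rw [intervalIntegral.integral_eq_sub_of_hasDerivAt h1]
  · rw [update_one_eq, hper, sub_self]
  · exact (hc.comp (continuous_const.update i continuous_id)).intervalIntegrable _ _

theorem per_dX {g : ℝ → (Fin 3 → ℝ) → ℝ} {t : ℝ} (h : Per (g t)) (i : Fin 3) :
    Per (dX i g t) := by
  intro x k
  unfold dX
  have : (fun s => g t (Function.update (x + Pi.single k 1) i s)) =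
      fun s => (fun r => g t (Function.update x i r))
        (s - (Pi.single k (1 : ℝ) : Fin 3 → ℝ) i) := by
    funext s
    rw [update_add_single, h]
  rw [this, deriv_comp_sub_const (fun r => g t (Function.update x i r))]
  simp

theorem ContOn.slice {T : ℝ} {g : ℝ → (Fin 3 → ℝ) → ℝ} (h : ContOn T g) {t : ℝ}
    (ht : t ∈ Icc 0 T) : Continuous (g t) := by
  have : ContinuousOn (fun x : Fin 3 → ℝ => g (t, x).1 (t, x).2) univ :=
    ContinuousOn.comp (g := fun z : ℝ × (Fin 3 → ℝ) => g z.1 z.2) (f := fun x => (t, x)) h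
      (continuous_const.prodMk continuous_id).continuousOn (fun x _ => ⟨ht, mem_univ _⟩)
  exact continuousOn_univ.1 this

theorem ContOn.time {T : ℝ} {g : ℝ → (Fin 3 → ℝ) → ℝ} (h : ContOn T g) (x : Fin 3 → ℝ) :
    ContinuousOn (fun t => g t x) (Icc 0 T) :=
  ContinuousOn.comp (g := fun z : ℝ × (Fin 3 → ℝ) => g z.1 z.2) (f := fun t => (t, x)) h
    (continuous_id.prodMk continuous_const).continuousOn (fun _ ht => ⟨ht, mem_univ _⟩)

theorem ContOn.bound {T : ℝ} {g : ℝ → (Fin 3 → ℝ) → ℝ} (h : ContOn T g) :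
    ∃ C : ℝ, 0 ≤ C ∧ ∀ t ∈ Icc 0 T, ∀ x ∈ Icc (0 : Fin 3 → ℝ) 1, |g t x| ≤ C := by
  have hc : IsCompact (Icc (0 : ℝ) T ×ˢ Icc (0 : Fin 3 → ℝ) 1) := isCompact_Icc.prod isCompact_Icc
  obtain ⟨C, hC⟩ := hc.exists_bound_of_continuousOn
    (h.mono (prod_mono subset_rfl (subset_univ _)))
  refine ⟨max C 0, le_max_right _ _, fun t ht x hx => ?_⟩
  exact (hC (t, x) ⟨ht, hx⟩).trans (le_max_left _ _)

theorem C1On.hasDerivAt {T : ℝ} {g : ℝ → (Fin 3 → ℝ) → ℝ} (h : C1On T g) {t : ℝ}
    (ht : t ∈ Icc 0 T) (i : Fin 3) (x : Fin 3 → ℝ) :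
    HasDerivAt (fun s => g t (Function.update x i s)) (dX i g t x) (x i) :=
  ((h.2 i).1 t ht x).hasDerivAt

theorem integrableOn_cube {G : (Fin 3 → ℝ) → ℝ} (h : Continuous G) :
    IntegrableOn G (Icc (0 : Fin 3 → ℝ) 1) :=
  h.continuousOn.integrableOn_compact isCompact_Icc

/-- Energy inequality at a fixed time. -/
theorem energy_ineq (ν K : ℝ) (hν : 0 ≤ ν) (v w D P' : Fin 3 → (Fin 3 → ℝ) → ℝ)
    (P : (Fin 3 → ℝ) → ℝ) (dv : Fin 3 → (Fin 3 → ℝ) → ℝ)
    (a b du : Fin 3 → Fin 3 → (Fin 3 → ℝ) → ℝ)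
    (cv : ∀ i, Continuous (v i)) (cw : ∀ i, Continuous (w i)) (cP : Continuous P)
    (cP' : ∀ i, Continuous (P' i)) (cdv : ∀ i, Continuous (dv i))
    (ca : ∀ i j, Continuous (a i j)) (cb : ∀ i j, Continuous (b i j))
    (cD : ∀ i, Continuous (D i))
    (pv : ∀ i, Per (v i)) (pw : ∀ i, Per (w i)) (pP : Per P) (pa : ∀ i j, Per (a i j))
    (hv : ∀ i x, HasDerivAt (fun s => v i (Function.update x i s)) (dv i x) (x i))
    (hw : ∀ i j x, HasDerivAt (fun s => w j (Function.update x i s)) (a i j x) (x i))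
    (ha : ∀ i j x, HasDerivAt (fun s => a i j (Function.update x i s)) (b i j x) (x i))
    (hP : ∀ i x, HasDerivAt (fun s => P (Function.update x i s)) (P' i x) (x i))
    (divv : ∀ x, ∑ i, dv i x = 0) (divw : ∀ x, ∑ i, a i i x = 0)
    (eqn : ∀ x j, D j x = -(∑ i, v i x * a i j x) - ∑ i, w i x * du i j x - P' j x +
      ν * ∑ i, b i j x)
    (hK : ∀ x ∈ Icc (0 : Fin 3 → ℝ) 1, ∀ i j, |du i j x| ≤ K) :
    ∫ x in Icc (0 : Fin 3 → ℝ) 1, ∑ j, 2 * w j x * D j x ≤
      6 * K * ∫ x in Icc (0 : Fin 3 → ℝ) 1, ∑ j, w j x ^ 2 := by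
  let G : Fin 3 → (Fin 3 → ℝ) → ℝ := fun i x =>
    v i x * (∑ j, w j x * w j x) + 2 * (P x * w i x) - 2 * ν * ∑ j, w j x * a i j x
  let G' : Fin 3 → (Fin 3 → ℝ) → ℝ := fun i x =>
    (dv i x * (∑ j, w j x * w j x) + v i x * ∑ j, (a i j x * w j x + w j x * a i j x)) +
      2 * (P' i x * w i x + P x * a i i x) - 2 * ν * ∑ j, (a i j x * a i j x + w j x * b i j x)
  have hG : ∀ i x, HasDerivAt (fun s => G i (Function.update x i s)) (G' i x) (x i) := by
    intro i x
    have h1 := (hv i x).mul (HasDerivAt.fun_sum (u := Finset.univ)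
      fun j _ => (hw i j x).mul (hw i j x))
    have h2 := ((hP i x).mul (hw i i x)).const_mul 2
    have h3 := (HasDerivAt.fun_sum (u := Finset.univ)
      fun j _ => (hw i j x).mul (ha i j x)).const_mul (2 * ν)
    have h4 := (h1.add h2).sub h3
    simp only [Function.update_eq_self, Pi.mul_apply] at h4
    exact h4
  have hGper : ∀ i, Per (G i) := by
    intro i x k
    simp only [G, pv i x k, pw _ x k, pP x k, pa _ _ x k]
  have hG'c : ∀ i, Continuous (G' i) := by
    intro i
    simp only [G']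
    fun_prop
  have hz : ∀ i, ∫ x in Icc (0 : Fin 3 → ℝ) 1, G' i x = 0 :=
    fun i => integral_partial_eq_zero (G i) (G' i) i (hGper i) (hG i) (hG'c i)
  have hz2 : ∫ x in Icc (0 : Fin 3 → ℝ) 1, ∑ i, G' i x = 0 := by
    rw [integral_finsetSum _ fun i _ => integrableOn_cube (hG'c i)]
    simp [hz]
  have c1 : Continuous fun x => ∑ j, 2 * w j x * D j x := by fun_prop
  have c2 : Continuous fun x => ∑ j, w j x ^ 2 := by fun_prop
  have c3 : Continuous fun x => ∑ i, G' i x := by fun_prop
  have key : ∫ x in Icc (0 : Fin 3 → ℝ) 1, ∑ j, 2 * w j x * D j x ≤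
      ∫ x in Icc (0 : Fin 3 → ℝ) 1, (6 * K * ∑ j, w j x ^ 2 - ∑ i, G' i x) := by
    refine setIntegral_mono_on (integrableOn_cube c1) (integrableOn_cube (by fun_prop))
      measurableSet_Icc fun x hx => ?_
    have e1 := divv x
    have e2 := divw x
    have hk := hK x hx
    have hb : ∀ i j, -(2 * (w i x * w j x * du i j x)) ≤ K * (w i x ^ 2 + w j x ^ 2) := by
      intro i j
      have h1 : |2 * (w i x * w j x)| ≤ w i x ^ 2 + w j x ^ 2 := by
        rw [abs_le]; constructor <;> nlinarith [sq_nonneg (w i x + w j x), sq_nonneg (w i x - w j x)]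
      have h2 : |2 * (w i x * w j x) * du i j x| ≤ (w i x ^ 2 + w j x ^ 2) * K := by
        rw [abs_mul]
        exact mul_le_mul h1 (hk i j) (abs_nonneg _) (by positivity)
      have h3 := (abs_le.1 h2).1
      nlinarith
    have hs : 0 ≤ ν * ∑ i, ∑ j, a i j x * a i j x :=
      mul_nonneg hν (Finset.sum_nonneg fun i _ => Finset.sum_nonneg fun j _ => mul_self_nonneg _)
    simp only [eqn, G', Fin.sum_univ_three] at *
    have h00 := hb 0 0
    have h01 := hb 0 1
    have h02 := hb 0 2
    have h10 := hb 1 0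
    have h11 := hb 1 1
    have h12 := hb 1 2
    have h20 := hb 2 0
    have h21 := hb 2 1
    have h22 := hb 2 2
    have e3 : dv 2 x = -dv 0 x - dv 1 x := by linarith
    have e4 : a 2 2 x = -a 0 0 x - a 1 1 x := by linarith
    rw [e4] at hs
    rw [e3, e4]
    nlinarith
  refine key.trans (le_of_eq ?_)
  rw [integral_sub (integrableOn_cube (by fun_prop)) (integrableOn_cube c3), hz2, sub_zero,
    integral_const_mul]

theorem eq_zero_of_integral_sq {G : (Fin 3 → ℝ) → ℝ} (hc : Continuous G) (h0 : ∀ x, 0 ≤ G x)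
    (hper : Per G) (h : ∫ x in Icc (0 : Fin 3 → ℝ) 1, G x = 0) (x : Fin 3 → ℝ) : G x = 0 := by
  have hae : G =ᵐ[volume.restrict (Icc (0 : Fin 3 → ℝ) 1)] 0 :=
    (setIntegral_eq_zero_iff_of_nonneg_ae (Filter.Eventually.of_forall h0)
      (integrableOn_cube hc)).1 h
  have hint : ∀ y ∈ Icc (0 : Fin 3 → ℝ) 1, G y = 0 := by
    have hcl : Icc (0 : Fin 3 → ℝ) 1 ⊆ closure (interior (Icc (0 : Fin 3 → ℝ) 1)) := by
      rw [← Set.pi_univ_Icc, interior_pi_set finite_univ, closure_pi_set]
      refine Set.pi_mono fun i _ => ?_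
      simp only [Pi.zero_apply, Pi.one_apply, interior_Icc]
      rw [closure_Ioo zero_ne_one]
    exact Measure.eqOn_of_ae_eq hae hc.continuousOn continuous_zero.continuousOn hcl
  have hint1 : ∀ (k : Fin 3) (n : ℤ) (y : Fin 3 → ℝ), G (y + Pi.single k (n : ℝ)) = G y := by
    intro k n y
    have hp : Function.Periodic G (Pi.single k (1 : ℝ)) := fun y => hper y k
    have := hp.zsmul n y
    rwa [← Pi.single_smul, zsmul_one] at this
  have e : x = (((fun i => Int.fract (x i)) + Pi.single 0 ((⌊x 0⌋ : ℤ) : ℝ)) +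
      Pi.single 1 ((⌊x 1⌋ : ℤ) : ℝ)) + Pi.single 2 ((⌊x 2⌋ : ℤ) : ℝ) := by
    funext i
    fin_cases i <;> simp
  rw [e, hint1, hint1, hint1]
  exact hint _ ⟨fun i => Int.fract_nonneg _, fun i => (Int.fract_lt_one _).le⟩

theorem IsClassical.hasDerivWithinAt {ν T : ℝ} {f u : ℝ → (Fin 3 → ℝ) → (Fin 3 → ℝ)}
    {p : ℝ → (Fin 3 → ℝ) → ℝ} (h : IsClassical ν T f u p) (j : Fin 3) {t : ℝ} (ht : t ∈ Icc 0 T)
    (x : Fin 3 → ℝ) :
    HasDerivWithinAt (fun s => u s x j) (dTOn T (comp u j) t x) (Icc 0 T) t :=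
  (h.diff_t j t ht x).hasDerivWithinAt

theorem per_comp {u : ℝ → (Fin 3 → ℝ) → (Fin 3 → ℝ)} {t : ℝ} (h : Per (u t)) (j : Fin 3) :
    Per (comp u j t) := fun x i => congrFun (h x i) j

/-- Uniqueness of the velocity. -/
theorem velocity_unique {ν T : ℝ} (hν : 0 ≤ ν) {f u v : ℝ → (Fin 3 → ℝ) → (Fin 3 → ℝ)}
    {p q : ℝ → (Fin 3 → ℝ) → ℝ} (hu : IsClassical ν T f u p) (hv : IsClassical ν T f v q)
    {t : ℝ} (ht : t ∈ Icc 0 T) : v t = u t := by
  let w : Fin 3 → ℝ → (Fin 3 → ℝ) → ℝ := fun j t x => v t x j - u t x j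
  let D : Fin 3 → ℝ → (Fin 3 → ℝ) → ℝ := fun j t x =>
    dTOn T (comp v j) t x - dTOn T (comp u j) t x
  let F : ℝ → (Fin 3 → ℝ) → ℝ := fun t x => ∑ j, w j t x ^ 2
  let F' : ℝ → (Fin 3 → ℝ) → ℝ := fun t x => ∑ j, 2 * w j t x * D j t x
  have cw : ∀ j, ContOn T (w j) := fun j => ContinuousOn.sub (hv.reg_u j).1 (hu.reg_u j).1
  have cD : ∀ j, ContOn T (D j) := fun j => ContinuousOn.sub (hv.cont_dt j) (hu.cont_dt j)
  have cF : ContOn T F := continuousOn_finsetSum _ fun j _ => (cw j).pow 2
  have cF' : ContOn T F' :=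
    continuousOn_finsetSum _ fun j _ => (continuousOn_const.mul (cw j)).mul (cD j)
  obtain ⟨K, hK0, hK⟩ : ∃ K : ℝ, 0 ≤ K ∧ ∀ t ∈ Icc 0 T, ∀ x ∈ Icc (0 : Fin 3 → ℝ) 1, ∀ i j,
      |dX i (comp u j) t x| ≤ K := by
    have cS : ContOn T (fun t x => ∑ i, ∑ j, |dX i (comp u j) t x|) :=
      continuousOn_finsetSum _ fun i _ => continuousOn_finsetSum _ fun j _ =>
        ((hu.reg_u j).2 i).2.abs
    obtain ⟨K, hK0, hK⟩ := cS.bound
    refine ⟨K, hK0, fun t ht x hx i j => ?_⟩
    refine le_trans ?_ ((le_abs_self _).trans (hK t ht x hx))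
    refine le_trans ?_ (Finset.single_le_sum (f := fun i => ∑ j, |dX i (comp u j) t x|)
      (fun i _ => Finset.sum_nonneg fun j _ => abs_nonneg _) (Finset.mem_univ i))
    exact Finset.single_le_sum (f := fun j => |dX i (comp u j) t x|)
      (fun j _ => abs_nonneg _) (Finset.mem_univ j)
  let E : ℝ → ℝ := fun t => ∫ x in Icc (0 : Fin 3 → ℝ) 1, F t x
  have hfin : IsFiniteMeasure ((volume : Measure (Fin 3 → ℝ)).restrict (Icc 0 1)) :=
    isFiniteMeasure_restrict.2 isCompact_Icc.measure_ne_top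
  have hEc : ContinuousOn E (Icc 0 T) := by
    obtain ⟨C, _, hC⟩ := cF.bound
    refine continuousOn_of_dominated (bound := fun _ => C)
      (fun s hs => (cF.slice hs).aestronglyMeasurable) (fun s hs => ?_) (integrable_const C)
      (Filter.Eventually.of_forall fun x => cF.time x)
    exact (ae_restrict_iff' measurableSet_Icc).2
      (Filter.Eventually.of_forall fun x hx => hC s hs x hx)
  have hEd : ∀ s ∈ Ioo 0 T, HasDerivAt E (∫ x in Icc (0 : Fin 3 → ℝ) 1, F' s x) s := by
    intro s hs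
    obtain ⟨C, _, hC⟩ := cF'.bound
    have hnh : Ioo 0 T ∈ nhds s := isOpen_Ioo.mem_nhds hs
    refine (hasDerivAt_integral_of_dominated_loc_of_deriv_le (bound := fun _ => C) (F := F)
      (F' := F') hnh ?_ (integrableOn_cube (cF.slice (Ioo_subset_Icc_self hs)))
      (cF'.slice (Ioo_subset_Icc_self hs)).aestronglyMeasurable ?_ (integrable_const C) ?_).2
    · filter_upwards [hnh] with r hr
      exact (cF.slice (Ioo_subset_Icc_self hr)).aestronglyMeasurable
    · exact (ae_restrict_iff' measurableSet_Icc).2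
        (Filter.Eventually.of_forall fun x hx r hr => hC r (Ioo_subset_Icc_self hr) x hx)
    · refine Filter.Eventually.of_forall fun x r hr => ?_
      have hr' := Ioo_subset_Icc_self hr
      have hn : Icc 0 T ∈ nhds r := Icc_mem_nhds hr.1 hr.2
      have hw : ∀ j, HasDerivAt (fun s => w j s x) (D j r x) r := fun j =>
        ((hv.hasDerivWithinAt j hr' x).hasDerivAt hn).sub
          ((hu.hasDerivWithinAt j hr' x).hasDerivAt hn)
      have := HasDerivAt.fun_sum (u := Finset.univ) fun j _ => (hw j).fun_pow 2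
      simpa [F, F'] using this
  have hineq : ∀ s ∈ Icc 0 T, ∫ x in Icc (0 : Fin 3 → ℝ) 1, F' s x ≤ 6 * K * E s := by
    intro s hs
    refine energy_ineq ν K hν (fun i => comp v i s) (fun j => w j s) (fun j => D j s)
      (fun j x => dX j q s x - dX j p s x) (fun x => q s x - p s x)
      (fun i => dX i (comp v i) s)
      (fun i j x => dX i (comp v j) s x - dX i (comp u j) s x)
      (fun i j x => dX i (dX i (comp v j)) s x - dX i (dX i (comp u j)) s x)
      (fun i j => dX i (comp u j) s)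
      (fun i => (hv.reg_u i).1.slice hs) (fun j => (cw j).slice hs)
      ((hv.reg_p.1.slice hs).sub (hu.reg_p.1.slice hs))
      (fun j => ((hv.reg_p.2 j).2.slice hs).sub ((hu.reg_p.2 j).2.slice hs))
      (fun i => ((hv.reg_u i).2 i).2.slice hs)
      (fun i j => (((hv.reg_u j).2 i).2.slice hs).sub (((hu.reg_u j).2 i).2.slice hs))
      (fun i j => (((hv.reg_du i j).2 i).2.slice hs).sub (((hu.reg_du i j).2 i).2.slice hs))
      (fun j => (cD j).slice hs)
      (fun i => per_comp (hv.per_u s hs) i)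
      (fun j x k => by simp only [w, hv.per_u s hs x k, hu.per_u s hs x k])
      (fun x k => by simp only [hv.per_p s hs x k, hu.per_p s hs x k])
      (fun i j x k => by
        simp only [per_dX (per_comp (hv.per_u s hs) j) i x k,
          per_dX (per_comp (hu.per_u s hs) j) i x k])
      (fun i x => (hv.reg_u i).hasDerivAt hs i x)
      (fun i j x => ((hv.reg_u j).hasDerivAt hs i x).sub ((hu.reg_u j).hasDerivAt hs i x))
      (fun i j x => ((hv.reg_du i j).hasDerivAt hs i x).sub ((hu.reg_du i j).hasDerivAt hs i x))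
      (fun i x => (hv.reg_p.hasDerivAt hs i x).sub (hu.reg_p.hasDerivAt hs i x))
      (fun x => hv.divfree s hs x)
      (fun x => by rw [Finset.sum_sub_distrib, hv.divfree s hs x, hu.divfree s hs x, sub_zero])
      (fun x j => ?_) (fun x hx i j => hK s hs x hx i j)
    have e1 := hv.momentum s hs x j
    have e2 := hu.momentum s hs x j
    simp only [D, w, comp, Fin.sum_univ_three] at *
    linarith
  let h : ℝ → ℝ := fun s => Real.exp (-(6 * K) * s) * E s
  have hh : ∀ s ∈ Ioo 0 T, HasDerivAt h (Real.exp (-(6 * K) * s) * (-(6 * K)) * E s +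
      Real.exp (-(6 * K) * s) * ∫ x in Icc (0 : Fin 3 → ℝ) 1, F' s x) s := by
    intro s hs
    have h1 : HasDerivAt (fun s => Real.exp (-(6 * K) * s))
        (Real.exp (-(6 * K) * s) * (-(6 * K))) s := by
      simpa using ((hasDerivAt_id s).const_mul (-(6 * K))).exp
    exact h1.mul (hEd s hs)
  have hanti : AntitoneOn h (Icc 0 T) := by
    refine antitoneOn_of_deriv_nonpos (convex_Icc 0 T) ?_ ?_ ?_
    · exact ContinuousOn.mul (by fun_prop) hEc
    · intro s hs
      rw [interior_Icc] at hs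
      exact (hh s hs).differentiableAt.differentiableWithinAt
    · intro s hs
      rw [interior_Icc] at hs
      rw [(hh s hs).deriv]
      have h1 := hineq s (Ioo_subset_Icc_self hs)
      have h2 := Real.exp_pos (-(6 * K) * s)
      nlinarith
  have h0 : E 0 = 0 := by simp [E, F, w, hu.init, hv.init]
  have hT : (0 : ℝ) ∈ Icc 0 T := ⟨le_rfl, ht.1.trans ht.2⟩
  have h1 : h t ≤ 0 := by
    have := hanti hT ht ht.1
    simpa [h, h0] using this
  have hF0 : ∀ x, 0 ≤ F t x := fun x => Finset.sum_nonneg fun j _ => sq_nonneg _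
  have h2 : E t = 0 := by
    have h3 : 0 ≤ E t := integral_nonneg hF0
    have h4 := Real.exp_pos (-(6 * K) * t)
    have h5 : E t ≤ 0 := by
      by_contra hcon
      have := mul_pos h4 (not_le.1 hcon)
      simp only [h] at h1
      linarith
    linarith
  have hFper : Per (F t) := fun x k => by
    simp only [F, w, hv.per_u t ht x k, hu.per_u t ht x k]
  funext x j
  have h6 := eq_zero_of_integral_sq (cF.slice ht) hF0 hFper h2 x
  have h7 := (Finset.sum_eq_zero_iff_of_nonneg fun j _ => sq_nonneg (w j t x)).1 h6 j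
    (Finset.mem_univ j)
  have h8 : w j t x = 0 := by simpa using h7
  simp only [w] at h8
  linarith

/-- Uniqueness of the pressure. -/
theorem pressure_unique {ν T : ℝ} (hν : 0 ≤ ν) {f u v : ℝ → (Fin 3 → ℝ) → (Fin 3 → ℝ)}
    {p q : ℝ → (Fin 3 → ℝ) → ℝ} (hu : IsClassical ν T f u p) (hv : IsClassical ν T f v q)
    {t : ℝ} (ht : t ∈ Icc 0 T) : q t = p t := by
  have huv : ∀ s ∈ Icc 0 T, v s = u s := fun s hs => velocity_unique hν hu hv hs
  have hc : ∀ j, comp v j t = comp u j t := fun j => by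
    funext x; simp only [comp, huv t ht]
  have hd1 : ∀ i j, dX i (comp v j) t = dX i (comp u j) t := fun i j => by
    funext x; simp only [dX, hc j]
  have hd2 : ∀ i j, dX i (dX i (comp v j)) t = dX i (dX i (comp u j)) t := fun i j => by
    funext x
    change deriv (fun s => dX i (comp v j) t (Function.update x i s)) (x i) =
      deriv (fun s => dX i (comp u j) t (Function.update x i s)) (x i)
    rw [hd1]
  have hd3 : ∀ j x, dTOn T (comp v j) t x = dTOn T (comp u j) t x := fun j x =>
    derivWithin_congr (fun s hs => by simp only [comp, huv s hs]) (by simp only [comp, huv t ht])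
  have hgrad : ∀ j x, dX j q t x = dX j p t x := by
    intro j x
    have e1 := hv.momentum t ht x j
    have e2 := hu.momentum t ht x j
    simp only [hd1, hd2, hd3, huv t ht] at e1
    linarith
  let P : (Fin 3 → ℝ) → ℝ := fun x => q t x - p t x
  have hP : ∀ i x s, P (Function.update x i s) = P x := by
    intro i x s
    have hdiff : ∀ r, HasDerivAt (fun s => P (Function.update x i s)) 0 r := by
      intro r
      have h1 := (hv.reg_p.hasDerivAt ht i (Function.update x i r)).fun_sub
        (hu.reg_p.hasDerivAt ht i (Function.update x i r))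
      rw [hgrad, sub_self] at h1
      simp only [Function.update_idem, Function.update_self] at h1
      exact h1
    have := is_const_of_deriv_eq_zero (fun r => (hdiff r).differentiableAt)
      (fun r => (hdiff r).deriv) s (x i)
    simpa using this
  have hconst : ∀ x, P x = P 0 := by
    intro x
    have e : x = Function.update (Function.update
        (Function.update (0 : Fin 3 → ℝ) 0 (x 0)) 1 (x 1)) 2 (x 2) := by
      funext i; fin_cases i <;> simp
    rw [e, hP, hP, hP]
  have hmean : ∫ x in Icc (0 : Fin 3 → ℝ) 1, P x = 0 := by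
    simp only [P]
    rw [integral_sub (integrableOn_cube (hv.reg_p.1.slice ht))
      (integrableOn_cube (hu.reg_p.1.slice ht)), hv.mean_p t ht, hu.mean_p t ht, sub_zero]
  have hP0 : P 0 = 0 := by
    simp only [hconst, integral_const, smul_eq_mul] at hmean
    have hvol : (volume.restrict (Icc (0 : Fin 3 → ℝ) 1)).real univ = 1 := by
      simp [Measure.real, Real.volume_Icc_pi]
    rwa [hvol, one_mul] at hmean
  funext x
  have := hconst x
  rw [hP0] at this
  simp only [P] at this
  linarith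

end Vale.Agent.P113
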