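import Vale.Agent.P113.Sep
import Vale.Agent.P113.Unique

/-!
Sequences of shear flows: smoothness, the Navier-Stokes system, trajectories.
-/

namespace Vale.Agent.P113

open Set Filter Topology

/-- cell size, cell number, exponent flag -/
abbrev Atom := ℕ × ℕ × ℕ

/-- coefficient and one atom per coordinate -/
abbrev Term := ℚ × Atom × Atom × Atom

/-- plateau: one on `[0, 1/2]`, zero outside `(-1/8, 5/8)` -/
noncomputable def beta (v : ℝ) : ℝ :=
  Real.smoothTransition (8 * v + 1) - Real.smoothTransition (8 * v - 4)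

/-- the atom before periodization -/
noncomputable def atom0 (a : Atom) (v : ℝ) : ℝ :=
  beta (a.1 * v - a.2.1) * (if a.2.2 = 0 then 1 else v)

/-- the periodic atom -/
noncomputable def atom (a : Atom) (x : ℝ) : ℝ :=
  if 2 * a.2.1 + 1 ≤ a.1 then atom0 a (x - ⌊x + 1 / 4⌋) else 1

/-- time profile of the displacement -/
noncomputable def sig (t : ℝ) : ℝ := Real.smoothTransition (3 * t - 1)

theorem sm_st : Sm Real.smoothTransition := Real.smoothTransition.contDiff

theorem sm_beta : Sm beta := by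
  unfold beta
  exact (sm_st.comp (by fun_prop)).sub (sm_st.comp (by fun_prop))

theorem sm_sig : Sm sig := sm_st.comp (by fun_prop)

theorem sm_atom0 (a : Atom) : Sm (atom0 a) := by
  have h1 : Sm fun v : ℝ => beta (a.1 * v - a.2.1) := sm_beta.comp (by fun_prop)
  have h2 : Sm fun v : ℝ => if a.2.2 = 0 then 1 else v := by
    by_cases h : a.2.2 = 0
    · simp only [if_pos h]; exact contDiff_const
    · simp only [if_neg h]; exact contDiff_id
  exact h1.mul h2

theorem beta_of_le {v : ℝ} (h : v ≤ -1 / 8) : beta v = 0 := by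
  unfold beta
  rw [Real.smoothTransition.zero_of_nonpos (by linarith),
    Real.smoothTransition.zero_of_nonpos (by linarith), sub_zero]

theorem beta_of_ge {v : ℝ} (h : 5 / 8 ≤ v) : beta v = 0 := by
  unfold beta
  rw [Real.smoothTransition.one_of_one_le (by linarith),
    Real.smoothTransition.one_of_one_le (by linarith), sub_self]

theorem beta_of_mem {v : ℝ} (h : 0 ≤ v) (h' : v ≤ 1 / 2) : beta v = 1 := by
  unfold beta
  rw [Real.smoothTransition.one_of_one_le (by linarith),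
    Real.smoothTransition.zero_of_nonpos (by linarith), sub_zero]

theorem atom0_of_le {a : Atom} (ha : 2 * a.2.1 + 1 ≤ a.1) {v : ℝ} (h : v ≤ -1 / 8) :
    atom0 a v = 0 := by
  have h1 : (2 * a.2.1 + 1 : ℝ) ≤ a.1 := by exact_mod_cast ha
  have h2 : (0 : ℝ) ≤ a.2.1 := Nat.cast_nonneg _
  unfold atom0
  rw [beta_of_le (by nlinarith), zero_mul]

theorem atom0_of_ge {a : Atom} (ha : 2 * a.2.1 + 1 ≤ a.1) {v : ℝ} (h : 5 / 8 ≤ v) :
    atom0 a v = 0 := by
  have h1 : (2 * a.2.1 + 1 : ℝ) ≤ a.1 := by exact_mod_cast ha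
  have h2 : (0 : ℝ) ≤ a.2.1 := Nat.cast_nonneg _
  unfold atom0
  rw [beta_of_ge (by nlinarith), zero_mul]

theorem atom_near {a : Atom} (ha : 2 * a.2.1 + 1 ≤ a.1) (x : ℝ) :
    atom a =ᶠ[𝓝 x] fun y => atom0 a (y - ⌊x + 1 / 4⌋) := by
  set n := ⌊x + 1 / 4⌋ with hn
  have h1 : x + 1 / 4 < n + 1 := Int.lt_floor_add_one _
  have h2 : (n : ℝ) ≤ x + 1 / 4 := Int.floor_le _
  have h3 : Ioo ((n : ℝ) - 3 / 8) (n + 3 / 4) ∈ 𝓝 x := Ioo_mem_nhds (by linarith) (by linarith)
  filter_upwards [h3] with y hy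
  unfold atom
  rw [if_pos ha]
  by_cases h4 : (n : ℝ) ≤ y + 1 / 4
  · have : ⌊y + 1 / 4⌋ = n := Int.floor_eq_iff.2 ⟨h4, by linarith [hy.2]⟩
    rw [this]
  · have : ⌊y + 1 / 4⌋ = n - 1 := Int.floor_eq_iff.2
      ⟨by push_cast; linarith [hy.1], by push_cast; linarith [not_le.1 h4]⟩
    rw [this, atom0_of_ge ha (by push_cast; linarith [hy.1]),
      atom0_of_le ha (by linarith [not_le.1 h4])]

theorem atom_invalid {a : Atom} (ha : ¬2 * a.2.1 + 1 ≤ a.1) : atom a = fun _ => 1 := by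
  funext x
  unfold atom
  rw [if_neg ha]

theorem sm_atom (a : Atom) : Sm (atom a) := by
  by_cases ha : 2 * a.2.1 + 1 ≤ a.1
  · refine contDiff_iff_contDiffAt.2 fun x => ?_
    refine ContDiffAt.congr_of_eventuallyEq ?_ (atom_near ha x)
    exact ((sm_atom0 a).comp (by fun_prop)).contDiffAt
  · rw [atom_invalid ha]; exact contDiff_const

theorem atom_add_one (a : Atom) (x : ℝ) : atom a (x + 1) = atom a x := by
  unfold atom
  have : ⌊x + 1 + 1 / 4⌋ = ⌊x + 1 / 4⌋ + 1 := by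
    rw [add_right_comm, Int.floor_add_one]
  rw [this]
  push_cast
  rw [add_sub_add_right_eq_sub]

theorem iter_atom (a : Atom) (n : ℕ) (x : ℝ) :
    deriv^[n] (atom a) x =
      if 2 * a.2.1 + 1 ≤ a.1 then deriv^[n] (atom0 a) (x - ⌊x + 1 / 4⌋)
      else if n = 0 then 1 else 0 := by
  by_cases ha : 2 * a.2.1 + 1 ≤ a.1
  · rw [if_pos ha, (iter_deriv_congr (atom_near ha x) n).self_of_nhds, iter_deriv_shift]
  · rw [if_neg ha, atom_invalid ha, iter_deriv_const]

theorem sig_of_le {t : ℝ} (h : t ≤ 1 / 3) : sig t = 0 :=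
  Real.smoothTransition.zero_of_nonpos (by linarith)

theorem sig_of_ge {t : ℝ} (h : 2 / 3 ≤ t) : sig t = 1 :=
  Real.smoothTransition.one_of_one_le (by linarith)

theorem tau_of_lt {t : ℝ} (h : t < 1 / 3) : deriv sig t = 0 := by
  have : sig =ᶠ[𝓝 t] fun _ => 0 := by
    filter_upwards [Iio_mem_nhds h] with s hs using sig_of_le (le_of_lt hs)
  rw [this.deriv_eq, deriv_const]

theorem tau_of_gt {t : ℝ} (h : 2 / 3 < t) : deriv sig t = 0 := by
  have : sig =ᶠ[𝓝 t] fun _ => 1 := by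
    filter_upwards [Ioi_mem_nhds h] with s hs using sig_of_ge (le_of_lt hs)
  rw [this.deriv_eq, deriv_const]

/-- factor in coordinate `i` for a shear along `c` -/
noncomputable def uf (c i : Fin 3) (a : Atom) : ℝ → ℝ := if c = i then fun _ => 1 else atom a

theorem sm_uf (c i : Fin 3) (a : Atom) : Sm (uf c i a) := by
  unfold uf
  split_ifs
  · exact contDiff_const
  · exact sm_atom a

theorem uf_add_one (c i : Fin 3) (a : Atom) (x : ℝ) : uf c i a (x + 1) = uf c i a x := by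
  unfold uf
  split_ifs
  · rfl
  · exact atom_add_one a x

/-- amplitude of the shear -/
noncomputable def gS (c : Fin 3) (L : List Term) (x : Fin 3 → ℝ) : ℝ :=
  (L.map fun e => (e.1 : ℝ) * (uf c 0 e.2.1 (x 0) * uf c 1 e.2.2.1 (x 1) *
    uf c 2 e.2.2.2 (x 2))).sum

theorem gS_per (c : Fin 3) (L : List Term) : Per (gS c L) := by
  intro x i
  unfold gS
  congr 1
  refine List.map_congr_left fun e _ => ?_
  fin_cases i <;> simp [uf_add_one]

theorem gS_congr (c : Fin 3) (L : List Term) {x y : Fin 3 → ℝ} (h : ∀ j, j ≠ c → x j = y j) :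
    gS c L x = gS c L y := by
  unfold gS
  congr 1
  refine List.map_congr_left fun e _ => ?_
  have key : ∀ (i : Fin 3) (a : Atom), uf c i a (x i) = uf c i a (y i) := by
    intro i a
    unfold uf
    split_ifs with hi
    · rfl
    · rw [h i (fun h' => hi h'.symm)]
  rw [key, key, key]

/-- the stage as a list of four functions -/
noncomputable def quads (m : ℕ) (c : Fin 3) (L : List Term) : List Quad :=
  L.map fun e => (fun s => (e.1 : ℝ) * deriv sig (s - m), uf c 0 e.2.1, uf c 1 e.2.2.1,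
    uf c 2 e.2.2.2)

theorem smL_quads (m : ℕ) (c : Fin 3) (L : List Term) : SmL (quads m c L) := by
  intro e he
  obtain ⟨e', _, rfl⟩ := List.mem_map.1 he
  exact ⟨contDiff_const.mul (sm_sig.deriv'.comp (by fun_prop)), sm_uf _ _ _, sm_uf _ _ _,
    sm_uf _ _ _⟩

theorem sep_quads (m : ℕ) (c : Fin 3) (L : List Term) (t : ℝ) (x : Fin 3 → ℝ) :
    sep (quads m c L) t x = deriv sig (t - m) * gS c L x := by
  unfold sep quads gS
  rw [List.map_map, ← List.sum_map_mul_left]
  congr 1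
  refine List.map_congr_left fun e _ => ?_
  simp only [Function.comp_apply]
  ring

variable (cs : ℕ → Fin 3) (Ls : ℕ → List Term)

/-- velocity during stage `m` -/
noncomputable def uL (m : ℕ) : ℝ → (Fin 3 → ℝ) → (Fin 3 → ℝ) := fun t x j =>
  if j = cs m then deriv sig (t - m) * gS (cs m) (Ls m) x else 0

/-- the velocity field -/
noncomputable def uu : ℝ → (Fin 3 → ℝ) → (Fin 3 → ℝ) := fun t => uL cs Ls ⌊t⌋₊ t

/-- the force -/
noncomputable def ff (ν : ℝ) : ℝ → (Fin 3 → ℝ) → (Fin 3 → ℝ) := fun t x j =>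
  dT (comp (uu cs Ls) j) t x - ν * ∑ i, dX i (dX i (comp (uu cs Ls) j)) t x

theorem floor_near (t : ℝ) : ∀ᶠ s : ℝ in 𝓝 t, ⌊s⌋₊ = ⌊t⌋₊ ∨
    (⌊s⌋₊ + 1 = ⌊t⌋₊ ∧ s - ⌊t⌋₊ < 0 ∧ 2 / 3 < s - ⌊s⌋₊) := by
  set m := ⌊t⌋₊ with hm
  have h1 : t < m + 1 := Nat.lt_floor_add_one t
  rcases Nat.eq_zero_or_pos m with h0 | h0
  · filter_upwards [Iio_mem_nhds h1] with s hs
    left
    rw [h0, Nat.floor_eq_zero]
    simpa [h0] using hs
  · have h2 : (m : ℝ) ≤ t := Nat.floor_le (le_of_lt (Nat.pos_of_floor_pos h0))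
    have h3 : Ioo ((m : ℝ) - 1 / 3) (m + 1) ∈ 𝓝 t := Ioo_mem_nhds (by linarith) h1
    have h4 : (1 : ℝ) ≤ m := by exact_mod_cast h0
    filter_upwards [h3] with s hs
    by_cases h5 : (m : ℝ) ≤ s
    · left
      exact (Nat.floor_eq_iff (by linarith)).2 ⟨h5, hs.2⟩
    · right
      obtain ⟨k, hk⟩ : ∃ k, m = k + 1 := ⟨m - 1, by omega⟩
      have h6 : (m : ℝ) = k + 1 := by rw [hk]; push_cast; ring
      have h7 : ⌊s⌋₊ = k := (Nat.floor_eq_iff (by linarith [hs.1])).2
        ⟨by linarith [hs.1], by linarith [not_le.1 h5]⟩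
      rw [h7]
      exact ⟨hk.symm, by linarith [not_le.1 h5], by linarith [hs.1]⟩

theorem uu_near (t : ℝ) : ∀ᶠ s in 𝓝 t, uu cs Ls s = uL cs Ls ⌊t⌋₊ s := by
  filter_upwards [floor_near t] with s hs
  rcases hs with h | ⟨_, h2, h3⟩
  · unfold uu; rw [h]
  · funext x j
    unfold uu uL
    rw [tau_of_gt h3, tau_of_lt (by linarith)]
    simp

/-- the list describing component `j` during stage `m` -/
noncomputable def compL (m : ℕ) (j : Fin 3) : List Quad :=
  if j = cs m then quads m (cs m) (Ls m) else []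

theorem smL_compL (m : ℕ) (j : Fin 3) : SmL (compL cs Ls m j) := by
  unfold compL
  split_ifs
  · exact smL_quads _ _ _
  · intro e he; simp at he

theorem comp_near (t : ℝ) (j : Fin 3) :
    NearEq t (comp (uu cs Ls) j) (sep (compL cs Ls ⌊t⌋₊ j)) := by
  filter_upwards [uu_near cs Ls t] with s hs
  funext x
  unfold comp compL
  rw [hs]
  unfold uL
  split_ifs
  · rw [sep_quads]
  · rfl

theorem locSep_uu (j : Fin 3) : LocSep (comp (uu cs Ls) j) :=
  fun t => ⟨_, smL_compL cs Ls _ j, comp_near cs Ls t j⟩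

theorem contDiff_uu :
    ContDiff ℝ (⊤ : ℕ∞) (fun z : ℝ × (Fin 3 → ℝ) => uu cs Ls z.1 z.2) :=
  contDiff_pi.2 fun j => (locSep_uu cs Ls j).sm2

theorem contDiff_ff (ν : ℝ) :
    ContDiff ℝ (⊤ : ℕ∞) (fun z : ℝ × (Fin 3 → ℝ) => ff cs Ls ν z.1 z.2) := by
  refine contDiff_pi.2 fun j => ?_
  exact (locSep_uu cs Ls j).dT.sm2.sub (contDiff_const.mul
    (ContDiff.sum fun i _ => (((locSep_uu cs Ls j).dX i).dX i).sm2))

theorem per_uu (t : ℝ) : Per (uu cs Ls t) := by
  intro x i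
  funext j
  unfold uu uL
  rw [gS_per]

theorem per_ff (ν t : ℝ) : Per (ff cs Ls ν t) := by
  intro x i
  funext j
  unfold ff
  have h1 : dT (comp (uu cs Ls) j) t (x + Pi.single i 1) = dT (comp (uu cs Ls) j) t x := by
    unfold dT comp
    simp only [per_uu cs Ls _ x i]
  rw [h1]
  congr 2
  refine Finset.sum_congr rfl fun k _ => ?_
  exact per_dX (per_dX (per_comp (per_uu cs Ls t) j) k) k x i

theorem dX_self (t : ℝ) (x : Fin 3 → ℝ) (j : Fin 3) :
    dX (cs ⌊t⌋₊) (comp (uu cs Ls) j) t x = 0 := by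
  unfold dX comp uu uL
  have : ∀ s, gS (cs ⌊t⌋₊) (Ls ⌊t⌋₊) (Function.update x (cs ⌊t⌋₊) s) =
      gS (cs ⌊t⌋₊) (Ls ⌊t⌋₊) x :=
    fun s => gS_congr _ _ fun k hk => Function.update_of_ne hk _ _
  simp only [this, deriv_const]

theorem dX_other (t : ℝ) (x : Fin 3 → ℝ) (i : Fin 3) {j : Fin 3} (hj : j ≠ cs ⌊t⌋₊) :
    dX i (comp (uu cs Ls) j) t x = 0 := by
  unfold dX comp uu uL
  simp only [if_neg hj, deriv_const]

theorem isClassical_uu (ν : ℝ) {T : ℝ} (hT : 0 < T) :
    IsClassical ν T (ff cs Ls ν) (uu cs Ls) (fun _ _ => 0) where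
  per_u := fun t _ => per_uu cs Ls t
  per_p := fun _ _ _ _ => rfl
  reg_u := fun j => (locSep_uu cs Ls j).c1On T
  reg_du := fun i j => ((locSep_uu cs Ls j).dX i).c1On T
  diff_t := fun j t _ x => ((locSep_uu cs Ls j).diff_T t x).differentiableWithinAt
  cont_dt := fun j => (locSep_uu cs Ls j).contOn_dTOn hT
  reg_p := by
    refine ⟨continuousOn_const, fun i => ⟨fun _ _ _ => differentiableAt_const _, ?_⟩⟩
    have : dX i (fun _ _ => (0 : ℝ)) = fun _ _ => 0 := by
      funext t x; simp [dX]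
    rw [this]
    exact continuousOn_const
  mean_p := fun _ _ => by simp
  momentum := by
    intro t ht x j
    rw [(locSep_uu cs Ls j).dTOn_eq hT ht]
    have h1 : ∑ i, uu cs Ls t x i * dX i (comp (uu cs Ls) j) t x = 0 := by
      refine Finset.sum_eq_zero fun i _ => ?_
      by_cases hi : i = cs ⌊t⌋₊
      · rw [hi, dX_self, mul_zero]
      · unfold uu uL
        rw [if_neg hi, zero_mul]
    have h2 : dX j (fun _ _ => (0 : ℝ)) t x = 0 := by simp [dX]
    rw [h1, h2]
    unfold ff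
    ring
  divfree := by
    intro t _ x
    refine Finset.sum_eq_zero fun i _ => ?_
    by_cases hi : i = cs ⌊t⌋₊
    · rw [hi, dX_self]
    · exact dX_other cs Ls t x i hi
  init := by
    intro x
    funext j
    unfold uu uL
    rw [tau_of_lt (by norm_num)]
    simp

/-- positions at integer times -/
noncomputable def pos (a : Fin 3 → ℝ) : ℕ → (Fin 3 → ℝ)
  | 0 => a
  | m + 1 => pos a m + Pi.single (cs m) (gS (cs m) (Ls m) (pos a m))

/-- the motion during stage `m` -/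
noncomputable def xL (a : Fin 3 → ℝ) (m : ℕ) (t : ℝ) : Fin 3 → ℝ :=
  pos cs Ls a m + Pi.single (cs m) (sig (t - m) * gS (cs m) (Ls m) (pos cs Ls a m))

theorem xL_hasDerivAt (a : Fin 3 → ℝ) (m : ℕ) (t : ℝ) :
    HasDerivAt (xL cs Ls a m) (uL cs Ls m t (xL cs Ls a m t)) t := by
  refine hasDerivAt_pi.2 fun j => ?_
  have hg : gS (cs m) (Ls m) (xL cs Ls a m t) = gS (cs m) (Ls m) (pos cs Ls a m) :=
    gS_congr _ _ fun k hk => by simp [xL, hk]
  unfold uL
  rw [hg]
  by_cases hj : j = cs m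
  · subst hj
    simp only [xL, Pi.add_apply, Pi.single_eq_same, if_true]
    have h1 : HasDerivAt (fun s => sig (s - m)) (deriv sig (t - m)) t :=
      (sm_sig.hasDerivAt (t - m)).comp_sub_const t m
    exact (h1.mul_const _).const_add _
  · simp only [xL, Pi.add_apply, Pi.single_eq_of_ne hj, if_neg hj]
    exact hasDerivAt_const _ _

theorem exists_trajectory (a : Fin 3 → ℝ) : ∃ X, IsTrajectory (uu cs Ls) a X := by
  refine ⟨fun t => xL cs Ls a ⌊t⌋₊ t, ?_, fun t _ => ?_⟩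
  · simp [xL, pos, sig_of_le]
  · refine HasDerivAt.hasDerivWithinAt ?_
    refine (xL_hasDerivAt cs Ls a ⌊t⌋₊ t).congr_of_eventuallyEq ?_
    filter_upwards [floor_near t] with s hs
    rcases hs with h | ⟨h1, h2, h3⟩
    · rw [h]
    · unfold xL
      rw [sig_of_ge h3.le, sig_of_le (t := s - ⌊t⌋₊) (by linarith), ← h1]
      simp [pos]

theorem trajectory_stage {a : Fin 3 → ℝ} {X : ℝ → Fin 3 → ℝ} (hX : IsTrajectory (uu cs Ls) a X)
    (m : ℕ) (hm : X m = pos cs Ls a m) : ∀ t ∈ Icc (m : ℝ) (m + 1), X t = xL cs Ls a m t := by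
  have hm0 : (0 : ℝ) ≤ m := Nat.cast_nonneg m
  have hc : ContinuousOn X (Icc (m : ℝ) (m + 1)) := fun t ht =>
    (hX.2 t (hm0.trans ht.1)).continuousWithinAt.mono fun s hs => hm0.trans hs.1
  have hd : ∀ t ∈ Ico (m : ℝ) (m + 1), HasDerivWithinAt X (uL cs Ls m t (X t)) (Ici t) t := by
    intro t ht
    have h1 := (hX.2 t (hm0.trans ht.1)).mono (Ici_subset_Ici.2 (hm0.trans ht.1))
    have h2 : ⌊t⌋₊ = m := (Nat.floor_eq_iff (hm0.trans ht.1)).2 ⟨ht.1, ht.2⟩
    unfold uu at h1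
    rwa [h2] at h1
  have hother : ∀ j, j ≠ cs m → ∀ t ∈ Icc (m : ℝ) (m + 1), X t j = pos cs Ls a m j := by
    intro j hj t ht
    rw [← hm]
    refine constant_of_has_deriv_right_zero (f := fun s => X s j)
      ((continuous_apply j).comp_continuousOn hc) (fun s hs => ?_) t ht
    have := hasDerivWithinAt_pi.1 (hd s hs) j
    simpa [uL, hj] using this
  intro t ht
  funext j
  by_cases hj : j = cs m
  · have hcx : ContinuousOn (fun s => xL cs Ls a m s j) (Icc (m : ℝ) (m + 1)) := fun s _ =>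
      ((hasDerivAt_pi.1 (xL_hasDerivAt cs Ls a m s) j).continuousAt).continuousWithinAt
    have key := constant_of_has_deriv_right_zero (f := fun s => X s j - xL cs Ls a m s j)
      (((continuous_apply j).comp_continuousOn hc).sub hcx) (fun s hs => ?_) t ht
    · have h0 : xL cs Ls a m m j = pos cs Ls a m j := by simp [xL, sig_of_le]
      simp only [h0, hm, sub_self] at key
      linarith
    · have h1 := hasDerivWithinAt_pi.1 (hd s hs) j
      have h2 := (hasDerivAt_pi.1 (xL_hasDerivAt cs Ls a m s) j).hasDerivWithinAt (s := Ici s)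
      have h3 : uL cs Ls m s (X s) j = uL cs Ls m s (xL cs Ls a m s) j := by
        unfold uL
        rw [gS_congr (cs m) (Ls m) (x := X s) (y := xL cs Ls a m s)]
        intro k hk
        rw [hother k hk s (Ico_subset_Icc_self hs)]
        simp [xL, hk]
      have h4 := h1.fun_sub h2
      rwa [h3, sub_self] at h4
  · rw [hother j hj t ht]
    simp [xL, hj]

theorem trajectory_int {a : Fin 3 → ℝ} {X : ℝ → Fin 3 → ℝ} (hX : IsTrajectory (uu cs Ls) a X)
    (m : ℕ) : X m = pos cs Ls a m := by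
  induction m with
  | zero => simpa [pos] using hX.1
  | succ m ih =>
    have := trajectory_stage cs Ls hX m ih (m + 1) ⟨by linarith, le_rfl⟩
    push_cast
    rw [this]
    simp [xL, pos, sig_of_ge (t := 1) (by norm_num)]

theorem trajectory_form {a : Fin 3 → ℝ} {X : ℝ → Fin 3 → ℝ} (hX : IsTrajectory (uu cs Ls) a X)
    {t : ℝ} (ht : 0 ≤ t) : ∃ (m : ℕ) (θ : ℝ), 0 ≤ θ ∧ θ ≤ 1 ∧
      X t = pos cs Ls a m + Pi.single (cs m) (θ * gS (cs m) (Ls m) (pos cs Ls a m)) :=
  ⟨⌊t⌋₊, sig (t - ⌊t⌋₊), Real.smoothTransition.nonneg _, Real.smoothTransition.le_one _,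
    trajectory_stage cs Ls hX _ (trajectory_int cs Ls hX _) t
      ⟨Nat.floor_le ht, (Nat.lt_floor_add_one t).le⟩⟩

/-- the mixed derivative of the velocity during one stage -/
noncomputable def wW (c : Fin 3) (L : List Term) (θ : ℝ) (x : Fin 3 → ℝ) (a b c' d : ℕ) : ℝ :=
  (L.map fun e => (e.1 : ℝ) * deriv^[a + 1] sig θ * (deriv^[b] (uf c 0 e.2.1) (x 0) *
    deriv^[c'] (uf c 1 e.2.2.1) (x 1) * deriv^[d] (uf c 2 e.2.2.2) (x 2))).sum

/-- multiply the time factor by a constant -/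
noncomputable def qS (r : ℝ) (e : Quad) : Quad := (fun s => r * e.1 s, e.2)

theorem SmL.qS {L : List Quad} (h : SmL L) (r : ℝ) : SmL (L.map (qS r)) := by
  intro e he
  obtain ⟨e', he', rfl⟩ := List.mem_map.1 he
  obtain ⟨h1, h2, h3, h4⟩ := h e' he'
  exact ⟨contDiff_const.mul h1, h2, h3, h4⟩

theorem sep_qS (L : List Quad) (r t : ℝ) (x : Fin 3 → ℝ) :
    sep (L.map (qS r)) t x = r * sep L t x := by
  unfold sep
  rw [List.map_map, ← List.sum_map_mul_left]
  congr 1
  refine List.map_congr_left fun e _ => ?_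
  simp only [Function.comp_apply, qS]
  ring

theorem time_iter (r m : ℝ) (n : ℕ) :
    deriv^[n] (fun s => r * deriv sig (s - m)) = fun t => r * deriv^[n + 1] sig (t - m) := by
  rw [iter_deriv_const_mul (fun s => deriv sig (s - m)), iter_deriv_shift (deriv sig)]
  rfl

theorem mixed_ff (ν t : ℝ) (x : Fin 3 → ℝ) (j : Fin 3) (a b c d : ℕ) :
    mixed a b c d (comp (ff cs Ls ν) j) t x =
      if j = cs ⌊t⌋₊ then
        wW (cs ⌊t⌋₊) (Ls ⌊t⌋₊) (t - ⌊t⌋₊) x (a + 1) b c d -
          ν * (wW (cs ⌊t⌋₊) (Ls ⌊t⌋₊) (t - ⌊t⌋₊) x a (b + 2) c d +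
            wW (cs ⌊t⌋₊) (Ls ⌊t⌋₊) (t - ⌊t⌋₊) x a b (c + 2) d +
            wW (cs ⌊t⌋₊) (Ls ⌊t⌋₊) (t - ⌊t⌋₊) x a b c (d + 2))
      else 0 := by
  set m := ⌊t⌋₊ with hm
  set L := compL cs Ls m j with hL
  have sL : SmL L := smL_compL cs Ls m j
  have nL : NearEq t (comp (uu cs Ls) j) (sep L) := comp_near cs Ls t j
  let L2 : Fin 3 → List Quad := fun i => ((L.map (qX i)).map (qX i)).map (qS (-ν))
  have s2 : ∀ i, SmL (L2 i) := fun i => ((sL.qX i).qX i).qS _
  have sF : SmL (L.map qT ++ (L2 0 ++ (L2 1 ++ L2 2))) :=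
    sL.qT.append ((s2 0).append ((s2 1).append (s2 2)))
  have nF : NearEq t (comp (ff cs Ls ν) j) (sep (L.map qT ++ (L2 0 ++ (L2 1 ++ L2 2)))) := by
    filter_upwards [nL.dT, (nL.dX 0).dX 0, (nL.dX 1).dX 1, (nL.dX 2).dX 2] with s h h0 h1 h2
    funext y
    change ff cs Ls ν s y j = _
    unfold ff
    rw [Fin.sum_univ_three, h, h0, h1, h2, sL.dT_eq, sL.dX_eq, sL.dX_eq, sL.dX_eq,
      (sL.qX 0).dX_eq, (sL.qX 1).dX_eq, (sL.qX 2).dX_eq]
    simp only [sep_append, L2, sep_qS]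
    ring
  rw [nF.mixed, sF.mixed_eq]
  simp only [List.map_append, List.sum_append, L2, List.map_map, hL, compL]
  split_ifs with hj
  · simp only [quads, List.map_map, wW]
    generalize Ls m = Lm
    induction Lm with
    | nil => simp
    | cons e Lm ih =>
      simp only [List.map_cons, List.sum_cons]
      have e1 : deriv^[a] (deriv fun s => (e.1 : ℝ) * deriv sig (s - m)) t =
          (e.1 : ℝ) * deriv^[a + 1 + 1] sig (t - m) := congrFun (time_iter e.1 m (a + 1)) t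
      have e2 : deriv^[a] (fun s => -ν * ((e.1 : ℝ) * deriv sig (s - m))) t =
          -ν * ((e.1 : ℝ) * deriv^[a + 1] sig (t - m)) := by
        rw [iter_deriv_const_mul (fun s => (e.1 : ℝ) * deriv sig (s - m)), time_iter]
      have e3 : ∀ (h : ℝ → ℝ) (n : ℕ), deriv^[n] (deriv (deriv h)) = deriv^[n + 2] h :=
        fun h n => rfl
      simp only [Function.comp_apply, qT, qX, qS, Fin.isValue, Fin.reduceEq, if_true, if_false,
        e1, e2, e3] at ih ⊢
      linear_combination ih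
  · simp

end Vale.Agent.P113
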